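import Vale.Agent.P287Q.Defs
import Vale.Agent.P287Q.Cub.Defs

/-!
# P287: the top level statements and the proof of the main theorem from them
-/

namespace Vale.Agent.P287Q.Top

open Set Function Module MvPolynomial P291Z P269

/-- A hypersurface or a projective space as a variety. -/
@[reducible] def one {N n : ℕ} {A : Set (Fin N → ℂ)} (h : PV (Cub.π₀ (Fin N)) A n)
    (c : IsConnected A) : Var n := { J := Fin N, R := Unit, π := Cub.π₀ _, A := A, pv := h, conn := c }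

/-- Projective space. -/
def P4 : Prop := ∃ (h : PV (Cub.π₀ (Fin 5)) {0}ᶜ 4) (c : IsConnected _),
  (one h c).Ok ∧ (one h c).Hg 3 1 = ⊥

/-- The cubic is a variety. -/
def CubV : Prop := ∀ F : MvPolynomial (Fin 6) ℂ, F.IsHomogeneous 3 → Pub.IsSmoothForm F →
  ∃ (h : PV (Cub.π₀ (Fin 6)) (Pub.cone F) 4) (c : IsConnected _),
    ∃ σ, σ ≠ 0 ∧ (one h c).Hg 3 1 = ℂ ∙ σ

/-- The cubic has a presentation. -/
def CubP : Prop := ∀ F : MvPolynomial (Fin 6) ℂ, F.IsHomogeneous 3 → Pub.IsSmoothForm F →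
  ∀ (h : PV (Cub.π₀ (Fin 6)) (Pub.cone F) 4) (c : IsConnected _), Nonempty (Prs (one h c))

/-- **Resolution of the rational map.** -/
def TOWER : Prop := ∀ F : MvPolynomial (Fin 6) ℂ, F.IsHomogeneous 3 → Pub.IsSmoothForm F →
  Cub.Bir F → ∀ (h : PV (Cub.π₀ (Fin 6)) (Pub.cone F) 4) (c : IsConnected _)
    (h₀ : PV (Cub.π₀ (Fin 5)) {0}ᶜ 4) (c₀ : IsConnected _),
  ∃ W, Tow (one h₀ c₀) W ∧ ∃ (Γ : Var 4) (q : Ext Γ W) (p : Ext Γ (one h c)),
    q.Iso ∧ q.Bir ∧ p.Bir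

/-- Composites of birational projections. -/
def BirC : Prop := ∀ (n : ℕ) (U V W : Var n) (g : Ext U V) (f : Ext V W), g.Bir → f.Bir →
  (g.comp f).Bir

/-- Blow-downs are birational. -/
def BirB : Prop := ∀ (n : ℕ) (V : Var n) (c : Ctr V), c.down.Bir

/-- Birational projections have degree one. -/
def Deg : Prop := ∀ (n : ℕ) (V W : Var n) (f : Ext V W), f.Bir → ∀ x, V.int (f.pb x) = W.int x

/-- Pull-backs preserve the types. -/
def Pull : Prop := ∀ (n m : ℕ) (V : Var n) (W : Var m) (f : Ext V W) (p q : ℕ), ∀ x ∈ W.Hg p q,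
  f.pb x ∈ V.Hg p q

/-- Poincare duality. -/
def PDual : Prop := ∀ (n : ℕ) (V : Var n) (x : H V.X), (∀ y, V.int (x * y) = 0) → x = 0

/-- **The cohomology of a blow-up.** -/
def BLCOH : Prop := ∀ (V : Var 4) (c : Ctr V), (V.Hg 2 0 = ⊥ → c.bl.Hg 2 0 = ⊥) ∧
  ∃ U, c.bl.Hg 3 1 = c.down.im ⊔ U ∧ (∀ u ∈ U, c.down.Ort u) ∧ (U = ⊥ ∨ c.bl.Sfc U)

/-- The blow-up has a presentation. -/
def BLPRS : Prop := ∀ (n : ℕ) (V : Var n) (c : Ctr V), Nonempty (Prs V) → Nonempty (Prs c.bl)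

/-- Isomorphisms. -/
def ISO : Prop := ∀ (V W : Var 4) (f : Ext V W), f.Iso → W.Ok →
  V.Ok ∧ f.im = V.Hg 3 1 ∧ finrank ℂ V.alg ≤ finrank ℂ W.alg

/-- `e` is the projection to the image of `f^*`. -/
structure Prj {V W : Var 4} (f : Ext V W) (e : End ℂ (V.Hg 3 1)) : Prop where
  mem : e ∈ V.alg
  rng : ∀ y, (e y).1 ∈ f.im
  id : ∀ y : V.Hg 3 1, y.1 ∈ f.im → e y = y
  ort : ∀ y : V.Hg 3 1, f.Ort y.1 → e y = 0

/-- **Theorem A**: the pull-back of `H^{3,1}` is a union of pieces. -/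
def THMA : Prop := ∀ (V W : Var 4) (f : Ext V W), f.Bir → V.Ok → Nonempty (Prs W) →
  ∃ e, Prj f e

open Classical in
/-- **Theorem B**: a blow-up adds at most one piece. -/
def THMB : Prop := ∀ (V : Var 4) (c : Ctr V), V.Ok → c.bl.Ok →
  finrank ℂ c.bl.alg ≤ finrank ℂ V.alg + if c.down.im = c.bl.Hg 3 1 then 0 else 1

/-- The cohomology has finite dimension. -/
def FinH : Prop := ∀ (n : ℕ) (V : Var n), FiniteDimensional ℂ (H V.X)

/-- **The last step**: from the surface to the labelling. -/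
def LAST : Prop := ∀ F : MvPolynomial (Fin 6) ℂ, F.IsHomogeneous 3 → Pub.IsSmoothForm F →
  ∀ (h : PV (Cub.π₀ (Fin 6)) (Pub.cone F) 4) (c : IsConnected _) (Γ : Var 4)
    (p : Ext Γ (one h c)), p.Bir → Γ.Sfc p.im → ∃ d, Cub.Lab F d ∧ Lat.Adm d ∧ (6 < d ∨ Cub.Rk2 F)

/-- The image of `f^*` is the sum of the surface parts `U i`, with projections `ε i`. -/
structure Fl {V W : Var 4} (f : Ext V W) {ι : Type} (U : ι → Submodule ℂ (H V.X))
    (ε : ι → End ℂ (V.Hg 3 1)) : Prop where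
  ne : ∀ i, U i ≠ ⊥
  sf : ∀ i, V.Sfc (U i)
  sup : ⨆ i, U i = f.im
  mem : ∀ i, ε i ∈ V.alg
  id : ∀ i, ∀ y : V.Hg 3 1, y.1 ∈ U i → ε i y = y
  off : ∀ i j, i ≠ j → ∀ y : V.Hg 3 1, y.1 ∈ U j → ε i y = 0
  ort : ∀ i, ∀ y : V.Hg 3 1, f.Ort y.1 → ε i y = 0

theorem sub_alg {M : Type} [AddCommGroup M] [Module ℂ M] {N : Submodule ℂ M}
    {A : Subalgebra ℂ (End ℂ N)} {a b} (ha : a ∈ A) (hb : b ∈ A) : a - b ∈ A := sub_mem ha hb

theorem pick {M : Type} [AddCommGroup M] [Module ℂ M] [FiniteDimensional ℂ M] {N : Submodule ℂ M}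
    {A : Subalgebra ℂ (End ℂ N)} {ι : Type} [Fintype ι] {U : ι → Submodule ℂ M} {ε : ι → End ℂ N}
    (ne : ∀ i, U i ≠ ⊥) (le : ∀ i, U i ≤ N) (mem : ∀ i, ε i ∈ A)
    (id : ∀ i, ∀ y : N, y.1 ∈ U i → ε i y = y)
    (off : ∀ i j, i ≠ j → ∀ y : N, y.1 ∈ U j → ε i y = 0) (hι : finrank ℂ A ≤ Fintype.card ι)
    {e} (he : e ∈ A) {σ : N} (h0 : σ.1 ≠ 0) (h1 : e σ = σ) (h2 : ∀ y, (e y).1 ∈ ℂ ∙ σ.1) :
    ∃ i, U i = ℂ ∙ σ.1 := by
  classical
  have ev : ∀ (c : ι → ℂ) i (y : N), y.1 ∈ U i → (∑ j, c j • ε j) y = c i • y := by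
    intro c i y hy
    rw [LinearMap.sum_apply, Finset.sum_eq_single i (fun j _ h => by
      rw [LinearMap.smul_apply, off j i h y hy, smul_zero]) (by simp), LinearMap.smul_apply,
      id i y hy]
  have li : LinearIndependent ℂ ε := by
    refine Fintype.linearIndependent_iff.2 fun c hc i => ?_
    obtain ⟨y, hy, h⟩ := (Submodule.ne_bot_iff _).1 (ne i)
    have e1 := ev c i ⟨y, le i hy⟩ hy
    rw [hc] at e1
    exact (smul_eq_zero.1 e1.symm).resolve_right fun a => h (congrArg Subtype.val a)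
  have sp : Submodule.span ℂ (range ε) = A.toSubmodule :=
    Submodule.eq_of_le_of_finrank_le (Submodule.span_le.2 (range_subset_iff.2 mem))
      (hι.trans (finrank_span_eq_card li).ge)
  obtain ⟨c, hc⟩ := (Submodule.mem_span_range_iff_exists_fun ℂ).1 (sp.ge he)
  obtain ⟨i, hi⟩ : ∃ i, c i ≠ 0 := by
    by_contra! h
    simp only [← hc, h, zero_smul, Finset.sum_const_zero] at h1
    exact h0 (congrArg Subtype.val h1).symm
  refine ⟨i, ((nonzero_span_atom σ.1 h0).le_iff.1 fun y hy => ?_).resolve_left (ne i)⟩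
  have := h2 ⟨y, le i hy⟩
  rw [← hc, ev c i _ hy] at this
  exact (Submodule.smul_mem_iff _ hi).1 this

theorem im_comp {U V W : Var 4} (g : Ext U V) (f : Ext V W) :
    (g.comp f).im = f.im.map g.pb.toLinearMap := by
  rw [Ext.im, Ext.im, ← Submodule.map_comp]
  exact congrArg (Submodule.map · _) (LinearMap.ext fun x => f.pb_comp g x)

theorem sfc_map (hD : Deg) {V W : Var 4} (f : Ext V W) (hf : f.Bir) {U} (h : W.Sfc U) :
    V.Sfc (U.map f.pb.toLinearMap) := by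
  obtain ⟨S, φ, h1, h2, rfl⟩ := h
  refine ⟨S, f.pb.toLinearMap ∘ₗ φ, fun y hy => Zc.Lam.map f.q (h1 y hy), fun x y hx hy => ?_,
    (Submodule.map_comp _ _ _).symm⟩
  rw [← h2 x y hx hy, ← hD _ _ _ f hf, map_mul f.pb]
  rfl

theorem pb_inj (hD : Deg) (hP : PDual) {V W : Var 4} (f : Ext V W) (hf : f.Bir) {x}
    (h : f.pb x = 0) : x = 0 :=
  hP _ _ x fun y => by rw [← hD _ _ _ f hf, map_mul, h, zero_mul, map_zero]

theorem tower (hC : BirC) (hB : BirB) (hD : Deg) (hP : PDual) (hL : BLCOH)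
    (hR : BLPRS) (hA : THMA) (hT : THMB) {V₀ Y : Var 4} (h₀ : V₀.Ok) (h₁ : V₀.Hg 3 1 = ⊥)
    (h : Tow V₀ Y) : Y.Ok ∧ ∃ (ι : Type) (_ : Fintype ι), finrank ℂ Y.alg ≤ Fintype.card ι ∧
      ∀ (V : Var 4) (f : Ext V Y), f.Bir → V.Ok → ∃ U ε, Fl f (ι := ι) U ε := by
  induction h with
  | refl =>
    refine ⟨h₀, Empty, inferInstance, ?_, fun V f _ _ => ⟨Empty.elim, Empty.elim, nofun, nofun, ?_,
      nofun, nofun, nofun, nofun⟩⟩
    · have : Subsingleton (V₀.Hg 3 1) := h₁ ▸ inferInstance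
      exact (finrank_zero_of_subsingleton).le
    · rw [iSup_of_empty, Ext.im, h₁, Submodule.map_bot]
  | @step Y _ c ih =>
    obtain ⟨ok, ι, _, hι, ih⟩ := ih
    obtain ⟨h20, U, e1, e2, e3⟩ := hL Y c
    have ok' : c.bl.Ok := ⟨h20 ok.h20, hR _ _ c ok.prs⟩
    have hb := hT Y c ok ok'
    have oc : ∀ {V : Var 4} (f : Ext V c.bl) (y), f.Ort y → (f.comp c.down).Ort y :=
      fun f y hy x => by rw [Ext.pb_comp]; exact hy _
    refine ⟨ok', ?_⟩
    by_cases hU0 : U = ⊥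
    · rw [hU0, sup_bot_eq] at e1
      rw [if_pos e1.symm] at hb
      refine ⟨ι, inferInstance, hb.trans hι, fun V f hf hV => ?_⟩
      obtain ⟨U', ε, k⟩ := ih V (f.comp c.down) (hC _ _ _ _ _ _ hf (hB _ _ c)) hV
      exact ⟨U', ε, k.ne, k.sf, by rw [k.sup, im_comp, ← e1]; rfl, k.mem, k.id, k.off,
        fun i y hy => k.ort i y (oc f _ hy)⟩
    refine ⟨Option ι, inferInstance, ?_, fun V f hf hV => ?_⟩
    · rw [Fintype.card_option]
      split_ifs at hb <;> omega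
    have hf' := hC _ _ _ _ _ _ hf (hB _ _ c)
    obtain ⟨U', ε, k⟩ := ih V _ hf' hV
    obtain ⟨e, he⟩ := hA _ _ _ hf' hV ok.prs
    obtain ⟨e', he'⟩ := hA _ _ _ hf hV ok'.prs
    have e4 : f.im = (f.comp c.down).im ⊔ U.map f.pb.toLinearMap := by
      rw [im_comp, ← Submodule.map_sup, ← e1]; rfl
    have e5 : ∀ y ∈ U.map f.pb.toLinearMap, (f.comp c.down).Ort y := by
      rintro _ ⟨u, hu, rfl⟩ x
      rw [Ext.pb_comp, ← e2 u hu x, ← hD _ _ _ f hf, map_mul f.pb]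
      rfl
    have e6 : ∀ i, U' i ≤ (f.comp c.down).im := fun i => k.sup ▸ le_iSup U' i
    refine ⟨fun o => o.elim (U.map f.pb.toLinearMap) U', fun o => o.elim (e' - e) ε, ?_, ?_, ?_, ?_,
      ?_, ?_, ?_⟩
    · rintro (_ | i)
      · exact fun h => hU0 ((Submodule.eq_bot_iff _).2 fun u hu => pb_inj hD hP f hf
          ((Submodule.eq_bot_iff _).1 h _ ⟨u, hu, rfl⟩))
      · exact k.ne i
    · rintro (_ | i)
      exacts [sfc_map hD f hf (e3.resolve_left hU0), k.sf i]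
    · rw [iSup_option, e4, sup_comm, ← k.sup]; rfl
    · rintro (_ | i)
      exacts [sub_alg he'.mem he.mem, k.mem i]
    · rintro (_ | i) y hy
      · change e' y - e y = y
        rw [he'.id y (e4 ▸ Submodule.mem_sup_right hy), he.ort y (e5 _ hy), sub_zero]
      · exact k.id i y hy
    · rintro (_ | i) (_ | j) hij y hy
      · exact (hij rfl).elim
      · change e' y - e y = 0
        rw [he'.id y (e4 ▸ Submodule.mem_sup_left (e6 j hy)), he.id y (e6 j hy), sub_self]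
      · exact k.ort i y (e5 _ hy)
      · exact k.off i j (fun h => hij (congrArg some h)) y hy
    · rintro (_ | i) y hy
      · change e' y - e y = 0
        rw [he'.ort y hy, he.ort y (oc f _ hy), sub_self]
      · exact k.ort i y (oc f _ hy)

/-- **The main theorem from the blocks.** -/
theorem main (h4 : P4) (hX : CubV) (hQ : CubP) (hW : TOWER) (hC : BirC) (hB : BirB) (hD : Deg)
    (hU : Pull) (hP : PDual) (hF : FinH) (hL : BLCOH) (hR : BLPRS) (hI : ISO) (hA : THMA)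
    (hT : THMB) (hE : LAST) : Cub.Main := by
  intro F h3 hs b
  obtain ⟨h₀, c₀, ok, h31⟩ := h4
  obtain ⟨h, c, σ, h0, hσ⟩ := hX F h3 hs
  obtain ⟨W, t, Γ, q, p, hq, hq', hp⟩ := hW F h3 hs b h c h₀ c₀
  obtain ⟨okW, ι, _, hι, k⟩ := tower hC hB hD hP hL hR hA hT ok h31 t
  obtain ⟨okΓ, e1, e2⟩ := hI _ _ q hq okW
  obtain ⟨U, ε, k⟩ := k Γ q hq' okΓ
  obtain ⟨e, he⟩ := hA _ _ p hp okΓ (hQ F h3 hs h c)
  have := hF _ Γ
  have e3 : p.im = ℂ ∙ p.pb σ := by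
    rw [Ext.im, hσ, Submodule.map_span, image_singleton]; rfl
  have e4 := hU _ _ _ _ p _ _ _ (hσ ▸ Submodule.mem_span_singleton_self σ)
  obtain ⟨i, hi⟩ := pick k.ne (fun i => e1 ▸ k.sup ▸ le_iSup U i) k.mem k.id k.off (e2.trans hι)
    he.mem (σ := ⟨_, e4⟩) (fun a => h0 (pb_inj hD hP p hp a))
    (he.id _ (e3 ▸ Submodule.mem_span_singleton_self _)) fun y => e3 ▸ he.rng y
  exact hE F h3 hs h c Γ p hp (e3 ▸ hi ▸ k.sf i)

end Vale.Agent.P287Q.Top
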