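import Vale.Agent.P287Q.Top.Bas
import Vale.Agent.P287Q.Hb.BlPV
import Vale.Agent.P287Q.Int.All

/-!
# P287: the cohomology of a blow-up of a fourfold
-/

set_option linter.style.haveILetI false

namespace Vale.Agent.P287Q

open Set Function P291Z P269 P269.Coh P269.Tq Hb

/-- The types on a smooth projective variety define a Hodge structure, and the line bundles of the
blocks have type `(1, 1)`. -/
def HGP : Prop := ∀ (J R : Type) [Fintype J] [Fintype R] (π : J → R) (A : Set (J → ℂ)) (n : ℕ)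
  [Holo.IsAct (scl π) univ] (h : PV π A n), HG h.qm.ps (QT (scl π) A) ∧
    ∀ r, (lcq (scl π) A fun t => t r) ∈ QT (scl π) A 1 1

namespace Ctr

variable {n r : ℕ} {V : Var n} (c : Ctr V) (hd : c.m + r + 1 = n)

instance isActB : Holo.IsAct (scl (blP (Fin c.k) V.π)) univ := isAct_scl _

/-- The exceptional divisor. -/
@[reducible] noncomputable def exE : PS := (c.cut.exc_pv V.pv c.pv hd).qm.ps

/-- The inclusion of the exceptional divisor. -/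
noncomputable def exJ : C((c.exE hd).X, c.bl.X) := Mono.qinc _ c.cut.exc_sub

/-- The projection of the exceptional divisor. -/
noncomputable def exP : C((c.exE hd).X, c.Z.X) := (exc_hol (π := V.π)).q

/-- The class of the conormal bundle. -/
noncomputable def exXi : H (c.exE hd).X := excXi V.π V.A c.C c.δ c.g

/-- The types on the exceptional divisor. -/
noncomputable abbrev exT : ℤ → ℤ → Submodule ℂ (H (c.exE hd).X) := QT _ (excA V.A c.C c.g)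

theorem blT : BlT V.ps c.Z.ps c.bl.ps (c.exE hd) c.inc.q c.down.q (c.exJ hd) (c.exP hd) r
    (c.exXi hd) := c.cut.blT V.pv c.pv hd

theorem blH (hG : HGP) : BlH V.ps c.Z.ps c.bl.ps (c.exE hd) c.down.q (c.exJ hd) (c.exP hd)
    (c.exXi hd) V.T c.Z.T c.bl.T (c.exT hd) :=
  c.cut.blH V.pv c.pv hd (hG _ _ _ _ _ V.pv).1 (hG _ _ _ _ _ c.pv).1 (hG _ _ _ _ _ c.pv').1
    (hG _ _ _ _ _ (c.cut.exc_pv V.pv c.pv hd)).1 (hG _ _ _ _ _ (c.cut.exc_pv V.pv c.pv hd)).2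

/-- The map `j_* p^*`. -/
noncomputable def exPhi : H c.Z.X →ₗ[ℂ] H c.bl.X :=
  PS.push (X := c.exE hd) (Y := c.bl.ps) (c.exJ hd) ∘ₗ pl (c.exP hd)

theorem phi_Lam {y : H c.Z.X} (hy : y ∈ Zc.Lam c.Z.X) : c.exPhi hd y ∈ Zc.Lam c.bl.X :=
  (Zc.pz_qm (c.cut.exc_pv V.pv c.pv hd).qm).push (Zc.pz_qm c.bl.qm) _ (Zc.Lam.map _ hy)

theorem phi_ort (hr : 0 < r) (s : H c.Z.X) : c.down.Ort (c.exPhi hd s) := fun x =>
  (c.blT hd).orth0' hr x s

include hd in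
theorem Hg20 (hG : HGP) : c.bl.Hg 2 0 = ⊥ ↔ V.Hg 2 0 = ⊥ := by
  rw [c.bl.Hg_eq, V.Hg_eq]
  exact (c.blT hd).eq_bot20 (c.blH hd hG)

theorem Hg31 (hG : HGP) :
    c.bl.Hg 3 1 = (V.Hg 3 1).map c.down.pb.toLinearMap ⊔ (c.Z.Hg 2 0).map (c.exPhi hd) := by
  rw [c.bl.Hg_eq, V.Hg_eq, c.Z.Hg_eq]
  exact (c.blT hd).eq_sup31 (c.blH hd hG)

theorem Hg13 (hG : HGP) :
    c.bl.Hg 1 3 = (V.Hg 1 3).map c.down.pb.toLinearMap ⊔ (c.Z.Hg 0 2).map (c.exPhi hd) := by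
  rw [c.bl.Hg_eq, V.Hg_eq, c.Z.Hg_eq]
  exact (c.blT hd).eq_sup13 (c.blH hd hG)

theorem phi_inj (hr : 0 < r) : Injective (c.exPhi hd) := (c.blT hd).exc0_injective hr

omit hd in
theorem finrank31 (hG : HGP) : Module.finrank ℂ (c.bl.Hg 3 1) =
    Module.finrank ℂ (V.Hg 3 1) + Module.finrank ℂ (c.Z.Hg 2 0) := by
  obtain ⟨r, hd⟩ : ∃ r, c.m + r + 1 = n := ⟨n - c.m - 1, by have := c.cod; omega⟩
  rw [c.bl.Hg_eq, V.Hg_eq, c.Z.Hg_eq]
  exact (c.blT hd).finrank31 (c.blH hd hG) (by have := c.cod; omega)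

omit hd in
/-- On a centre of dimension at most two the classes with `p - q = 2` have type `(2, 0)`. -/
theorem lvl2 (hG : HGP) (hm : c.m ≤ 2) {p q : ℤ} (h : p - q = 2) : c.Z.T p q ≤ c.Z.Hg 2 0 := by
  by_cases k : p = 2
  · obtain rfl : q = 0 := by omega
    exact k ▸ (c.Z.Hg_eq 2 0).ge
  · rw [show c.Z.T p q = ⊥ from (hG _ _ _ _ _ c.pv).1.out p q
      (show p < 0 ∨ q < 0 ∨ (c.m : ℤ) < p ∨ (c.m : ℤ) < q by omega)]
    exact bot_le

omit hd in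
theorem iSup_lvl2 (hG : HGP) (hm : c.m ≤ 2) : ⨆ q : ℕ, c.Z.Hg (q + 2) q = c.Z.Hg 2 0 :=
  le_antisymm (iSup_le fun q => (c.Z.Hg_eq _ _).le.trans (c.lvl2 hG hm (by push_cast; ring)))
    (le_iSup (fun q : ℕ => c.Z.Hg (q + 2) q) 0)

theorem int_phi (hd : c.m + 1 + 1 = n) (x y : H c.Z.X) :
    c.bl.int (c.exPhi hd x * c.exPhi hd y) = -c.Z.int (x * y) := (c.blT hd).J_exc1 x y

end Ctr

theorem Top.blcoh_of (hG : HGP) : Top.BLCOH := fun V c => by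
  obtain ⟨r, hd⟩ : ∃ r, c.m + r + 1 = 4 := ⟨3 - c.m, by have := c.cod; omega⟩
  have hr : 0 < r := by have := c.cod; omega
  refine ⟨(c.Hg20 hd hG).2, (c.Z.Hg 2 0).map (c.exPhi hd), c.Hg31 hd hG, ?_, ?_⟩
  · rintro _ ⟨s, -, rfl⟩
    exact c.phi_ort hd hr s
  by_cases h0 : c.Z.Hg 2 0 = ⊥
  · exact .inl (by rw [h0, Submodule.map_bot])
  obtain rfl := (c.blT hd).eq_one_of_ne_bot (c.blH hd hG) rfl hr
    fun e => h0 ((c.Z.T_nat 2 0).symm.trans e)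
  have hm : c.m = 2 := by omega
  exact .inr ⟨{ J := V.J, R := V.R, π := V.π, A := c.C, pv := hm ▸ c.pv, conn := c.conn },
    c.exPhi hd, fun y hy => c.phi_Lam hd hy.1, fun x y _ _ => c.int_phi hd x y, rfl⟩

end Vale.Agent.P287Q
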