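import Vale.Agent.P287Q.Top.Off
import Vale.Agent.P287Q.Hb.Abs

/-!
# P287: the algebra of two-point operators under isomorphisms
-/

set_option linter.unusedSectionVars false

namespace Vale.Agent.P287Q

open Set Function Topology Filter Module P291Z P269 P269.Holo

/-- The types define a Hodge structure. -/
def HGV : Prop := ∀ (n : ℕ) (V : Var n), Hb.HG V.ps V.T

theorem zpow_mat {R R' : Type} [Fintype R] [Fintype R'] {t : R → ℂ} (ht : IsUnit t) (a : R' → ℤ)
    (d : R' → R → ℤ) : ∏ s, (∏ r, t r ^ d s r) ^ a s = ∏ r, t r ^ ∑ s, a s * d s r := by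
  simp only [← Finset.prod_zpow]
  rw [Finset.prod_comm]
  refine Finset.prod_congr rfl fun r _ => ?_
  induction (Finset.univ : Finset R') using Finset.cons_induction with
  | empty => simp
  | cons b s hb ih =>
    rw [Finset.prod_cons, Finset.sum_cons, zpow_add₀ (unit_iff.1 ht r), ih, mul_comm (a b),
      zpow_mul]

theorem eq_of_chr {R : Type} [Fintype R] {a b : R → ℤ}
    (h : ∀ t : R → ℂ, IsUnit t → ∏ r, t r ^ a r = ∏ r, t r ^ b r) : a = b := funext fun r => by
  classical
  have e : ∀ c : R → ℤ, ∏ s, update (1 : R → ℂ) r 2 s ^ c s = 2 ^ c r := fun c => by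
    rw [Finset.prod_eq_single r (fun s _ k => by simp [k]) (by simp), update_self]
  have := h (update 1 r 2) (unit_iff.2 fun s => by by_cases k : s = r <;> simp [k])
  rw [e, e] at this
  have k : (2 : ℝ) ^ a r = 2 ^ b r := by simpa using congrArg (‖·‖) this
  exact zpow_right_injective₀ two_pos (by norm_num) k

variable {n : ℕ} {V W : Var n}

theorem HGV.nondeg (hG : HGV) {V : Var 4} {x : H V.X} (hx : x ∈ V.Hg 3 1)
    (h : ∀ y ∈ V.Hg 1 3, V.int (x * y) = 0) : x = 0 :=
  (hG _ V).nondeg (p := (3 : ℕ)) (q := (1 : ℕ)) ((V.Hg_eq 3 1).le hx) fun y hy =>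
    h y ((V.Hg_eq 1 3).ge hy)

theorem HGV.of_pb (hG : HGV) {m : ℕ} {W : Var m} (f : Ext V W) (h : Injective f.pb) {p q : ℕ}
    {x : H W.X} (hx : f.pb x ∈ V.Hg p q) : x ∈ W.Hg p q :=
  (W.Hg_eq p q).ge
    ((hG _ W).of_map (hG _ V) (f := f.q) (fun _ _ _ => f.map_T) h ((V.Hg_eq p q).le hx))

namespace Prs

variable (P : Prs V) (f : Ext V W) {s : (W.J → ℂ) → V.J → ℂ} (h : Sct W.π V.π V.A f.iJ W.A s)
  {d : V.R → W.R → ℤ} (hd : ∀ t, IsUnit t → ∀ x ∈ W.A,
    s (scl W.π t x) = scl V.π (fun r => ∏ r₀, t r₀ ^ d r r₀) (s x))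

include h hd in
theorem down_d (r : W.R) : d (f.iR r) = Pi.single r 1 := eq_of_chr fun t ht => by
  obtain ⟨x, hx⟩ := W.conn.nonempty
  obtain ⟨j, rfl, b⟩ := W.pv.sub hx r
  have e := congrFun (hd t ht x hx) (f.iJ j)
  rw [← comp_apply (f := s _), h.inv _ (W.pv.inv t ht x hx), scl, scl, ← comp_apply (f := s x),
    h.inv x hx, f.blk] at e
  rw [← mul_right_cancel₀ b e, Finset.prod_eq_single (W.π j) (fun s _ k => by simp [k]) (by simp)]
  simp

/-- The same target as a presentation of an isomorphic variety. -/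
@[reducible] noncomputable def down : Prs W :=
  { P with
    ι := P.ι ∘ f.iJ
    ρ := P.ρ ∘ f.iR
    M := fun r r₀ => ∑ a, P.M r a * d a r₀
    Φ := fun y => P.Φ (s y)
    tors :=
      { inj := P.tors.inj.comp f.injJ
        inj' := P.tors.inj'.comp f.injR
        w := fun j => (P.tors.w _).trans (by rw [f.blk]; rfl)
        maps := fun z hz => f.map _ (P.tors.maps z hz)
        M_ρ := fun r => funext fun r₀ => by
          rw [comp_apply, P.tors.M_ρ, Finset.sum_eq_single (f.iR r) (fun _ _ k => by simp [k])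
            (by simp), down_d f h hd]
          simp
        mem := fun y hy => P.tors.mem _ (h.mem y hy)
        sec := fun y hy => (congrArg (· ∘ f.iJ) (P.tors.sec _ (h.mem y hy))).trans (h.inv y hy)
        hol := fun y hy => (P.tors.hol _ (h.mem y hy)).comp (h.hol y hy) hy (.of_forall h.mem)
        eqv := fun t ht y hy => by
          rw [hd t ht y hy, P.tors.eqv _ (unit_iff.2 fun _ => Finset.prod_ne_zero_iff.2 fun r _ =>
            zpow_ne_zero _ (unit_iff.1 ht r)) _ (h.mem y hy)]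
          simp only [zpow_mat ht]
        orb := fun z hz => by
          obtain ⟨t, a, b⟩ := P.tors.orb z hz
          have k := P.tors.maps z hz
          obtain ⟨u, c, e⟩ := h.orb _ k (f.map _ k)
          rw [e, P.tors.eqv u c _ (h.mem _ (f.map _ k)), ← P.F.actT_mul] at b
          exact ⟨_, a.mul (unit_iff.2 fun _ => Finset.prod_ne_zero_iff.2 fun r _ =>
            zpow_ne_zero _ (unit_iff.1 c r)), b.trans (by rw [Prod.mk_mul_mk, one_mul]; rfl)⟩ } }

theorem down_pb (x : H W.X) : (P.down f h hd).pb x = P.pb (f.pb x) :=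
  (P.eqv.map_map f.eqv x).symm

theorem down_gw (e : P.R → ℤ) (l : List (ℕ × H W.X)) :
    (P.down f h hd).gw' e l = P.gw' e (l.map (Prod.map id f.pb)) := by
  rw [gw', gw', List.map_map]
  exact congrArg (fun l => P.F.cor P.k P.F.exC 0 P.F.cone P.F.cone e (-1) l [] [])
    (List.map_congr_left fun x _ => Prod.ext rfl (P.down_pb f h hd x.2))

end Prs

/-- The operators of an isomorphic variety. -/
theorem Ext.Iso.alg (hG : HGV) {V W : Var 4} {f : Ext V W} (h : f.Iso) :
    ∃ e : W.Hg 3 1 ≃ₗ[ℂ] V.Hg 3 1, (∀ x, (e x).1 = f.pb x) ∧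
      ∀ T ∈ V.alg, e.symm.conjAlgEquiv ℂ T ∈ W.alg := by
  obtain ⟨hi, hs⟩ := h.pb_bij
  choose g hg using hs
  let e : W.Hg 3 1 ≃ₗ[ℂ] V.Hg 3 1 := .ofBijective (f.pb.toLinearMap.restrict fun _ => f.pb_mem)
    ⟨fun _ _ k => Subtype.ext (hi (congrArg Subtype.val k)), fun y =>
      ⟨⟨g y, hG.of_pb f hi ((hg y).symm ▸ y.2)⟩, Subtype.ext (hg y)⟩⟩
  refine ⟨e, fun _ => rfl,
    Algebra.adjoin_le (S := W.alg.comap (e.symm.conjAlgEquiv ℂ).toAlgHom) ?_⟩
  rintro T ⟨P, d, l, h1, h2⟩
  have hl : (l.map (Prod.map id g)).map (Prod.map id f.pb) = l := by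
    rw [List.map_map]
    exact (List.map_congr_left fun x _ => Prod.ext (by rfl) (hg x.2)).trans l.map_id
  obtain ⟨s, hs⟩ := id h
  obtain ⟨D, hD⟩ := hs.eqv
  by_cases k : P.up d = (P.down f hs hD).up (P.up d ∘ (P.down f hs hD).ρ)
  · refine Algebra.subset_adjoin ⟨P.down f hs hD, P.up d ∘ (P.down f hs hD).ρ,
      l.map (Prod.map id g), List.forall_mem_map.2 fun x hx => ?_, fun x y hy => ?_⟩
    · refine Submodule.iSup_induction (motive := fun c => g c ∈ W.pp) _ (h1 x hx) (fun p c hc =>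
        Submodule.mem_iSup_of_mem p (hG.of_pb f hi ((hg c).symm ▸ hc))) ?_ fun a b ha hb => ?_
      · rw [hi ((hg 0).trans (map_zero _).symm)]
        exact zero_mem _
      · rw [hi ((hg (a + b)).trans (by rw [map_add, hg, hg] : _ = f.pb (g a + g b)))]
        exact add_mem ha hb
    · rw [Prs.gw, ← k, Prs.down_gw, List.map_cons, List.map_cons, hl, ← h.int_pb, map_mul]
      exact (congrArg (fun z : V.Hg 3 1 => V.int (z.1 * _)) (e.apply_symm_apply _)).trans
        (h2 (e x) _ (f.pb_mem hy))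
  · have : T = 0 := LinearMap.ext fun x => Subtype.ext (hG.nondeg (T x).2 fun y hy => by
      by_contra a
      rw [h2 x y hy, ← hg x.1, ← hg y, ← hl] at a
      exact k ((P.down f hs hD).off (l := (0, g x) :: (0, g y) :: l.map (Prod.map id g))
        (by rw [Prs.down_gw]; exact a)))
    exact this ▸ zero_mem _

theorem Top.iso_of (hG : HGV)
    (hP : ∀ (V W : Var 4) (f : Ext V W), f.Iso → Nonempty (Prs W) → Nonempty (Prs V)) :
    Top.ISO := fun V W f h ok => by
  obtain ⟨e, h1, h2⟩ := h.alg hG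
  refine ⟨⟨eq_bot_iff.2 fun x hx => ?_, hP _ _ f h ok.prs⟩, f.im_le.antisymm fun y hy => ?_, ?_⟩
  · obtain ⟨y, rfl⟩ := h.pb_bij.2 x
    have := hG.of_pb f h.pb_bij.1 hx
    rw [ok.h20, Submodule.mem_bot] at this
    rw [this, map_zero]
    exact zero_mem _
  · exact ⟨_, (e.symm ⟨y, hy⟩).2, (h1 _).symm.trans
      (congrArg Subtype.val (e.apply_symm_apply _))⟩
  · have := W.fin
    have : Module.Finite ℂ W.alg := .of_injective W.alg.val.toLinearMap Subtype.val_injective
    exact LinearMap.finrank_le_finrank_of_injective (f := (((e.symm.conjAlgEquiv ℂ).toAlgHom.comp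
      V.alg.val).codRestrict W.alg fun x => h2 _ x.2).toLinearMap) fun _ _ k =>
      Subtype.ext ((e.symm.conjAlgEquiv ℂ).injective (congrArg Subtype.val k))

end Vale.Agent.P287Q
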