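import Vale.Agent.P287Q.Top.BlCoh
import Vale.Agent.P287Q.Top.Iso
import Vale.Agent.P287Q.Hb.All
import Vale.Agent.P287Q.Hb.L11

/-!
# P287: Hodge structures of varieties, the cohomology of a blow-up
-/

namespace Vale.Agent.P287Q

open Classical in
theorem hgp : HGP := fun _ _ _ _ _ _ _ _ h => ⟨h.hg, fun r => (h.gen r).lcq_mem h.qm⟩

theorem hgv : HGV := fun _ V => V.pv.hg

theorem Top.blcoh : Top.BLCOH := Top.blcoh_of hgp

end Vale.Agent.P287Q
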