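import Vale.Agent.P287Q.Top.St
import Vale.Agent.P287Q.Cub.S
import Vale.Agent.P287Q.Cub.Pv

/-!
# P287: the cubic fourfold and projective space as varieties
-/

set_option linter.unusedSectionVars false
set_option linter.style.haveILetI false

namespace Vale.Agent.P287Q.Cub

open Set Function Topology Filter Module P291Z P269 P269.Holo P269.Mono P269.Coh
  P269.Tq P269.Hdg Hb

theorem cubV_pre {X : Type} [TopologicalSpace X]
    (h : ∀ x : H X, H.IsDeg 0 x → ∃ c : ℂ, x = c • 1) : PreconnectedSpace X := by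
  classical
  refine ⟨isPreconnected_of_forall_constant fun f hf x _ y _ => ?_⟩
  have h1 : IsLocallyConstant fun x => if f x then (1 : ℂ) else 0 :=
    ((IsLocallyConstant.iff_continuous f).2 (continuousOn_univ.1 hf)).comp
      fun b => if b then 1 else 0
  obtain ⟨c, e⟩ := h _ (hcls_isDeg (isDeg_fn fun x => if f x then (1 : ℂ) else 0))
  rw [← hcls_one, ← hcls_smul c cocycle_one] at e
  obtain ⟨b, hb⟩ := (hcls_eq_iff (Orb.cocycle_fn.2 h1) (cocycle_smul c cocycle_one)).1 e
  have h2 : ∀ x, (if f x then (1 : ℂ) else 0) = c := fun x => by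
    have := Van.val_single (supp_eq_empty.1 hb x)
    rw [Coch.sub_val, Coch.sub_val, Pi.sub_apply, Pi.sub_apply, δ_val_single, ← fn_const] at this
    simpa [fn_val, sub_eq_zero] using this
  have := (h2 x).trans (h2 y).symm
  cases h3 : f x <;> cases h4 : f y <;> simp_all

variable {N : ℕ} {A : Type} [NormedRing A] [NormedAlgebra ℂ A] [FiniteDimensional ℂ A]
  {ι : Type} [Fintype ι] [DecidableEq ι] {F : ι → MP N} {d : ι → ℕ} {n : ℕ}
  {act : A → E N → E N} [IsAct act univ] {χ : A → ℂ} (s : Sc act χ) (h : IsCI F d)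
  (hn : n + Fintype.card ι = N)
include s h hn

theorem Sc.nonempty : (cone F).Nonempty := by
  obtain ⟨c, -, hc⟩ := s.hb h hn 0 (Nat.zero_le _)
  by_contra e
  haveI : IsEmpty (Quo act (cone F)) := ⟨mk_surj.forall.2 fun x => e ⟨_, x.2⟩⟩
  obtain ⟨a, -, rfl⟩ := hcls_surj c
  exact hc (by rw [Subsingleton.elim a 0, hcls_zero])

theorem Sc.preconn (h1 : n ≠ 0) : PreconnectedSpace (Quo act (cone F)) :=
  cubV_pre fun x hx => by
    obtain rfl | ⟨j, c, e, rfl⟩ := amb_deg (s.h_deg h hn)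
      ((s.lf h hn).amb 0 (Nat.cast_ne_zero.2 h1).symm x hx) hx
    · exact ⟨0, (zero_smul _ _).symm⟩
    · exact ⟨c, by rw [show j = 0 by omega, pow_zero]⟩

/-- **A complete intersection of positive dimension is connected.** -/
theorem Sc.conn (h1 : n ≠ 0) : IsConnected (cone F) := by
  haveI := s.preconn h hn h1
  obtain ⟨a, ha⟩ := s.nonempty h hn
  haveI : ConnectedSpace ({0}ᶜ : Set ℂ) := isConnected_iff_connectedSpace.1
    (isConnected_compl_singleton_of_one_lt_rank (by simp) 0)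
  have h2 := (s.isProj (F := F)).quot.preimage_connectedComponent (mk_surj.forall.2 fun x => by
    have k : ∀ t : ({0}ᶜ : Set ℂ), t.1 • x.1 ∈ cone F := fun t => ⟨smul_ne_zero t.2 x.2.1,
      fun j => by rw [eval_smul_of_hom (h.hom j), x.2.2 j, mul_zero]⟩
    rw [show Quo.mk act ⁻¹' {Quo.mk act x} = range fun t => (⟨_, k t⟩ : cone F) from
      Set.ext fun y => ⟨fun e => ((s.isProj.fib x y).1 (Eq.symm e)).elim fun t e => ⟨⟨t, fun e' =>
        y.2.1 (by rw [← e, e', zero_smul])⟩, Subtype.ext e⟩, fun ⟨t, e⟩ =>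
          ((s.isProj.fib x y).2 ⟨t, congrArg Subtype.val e⟩).symm⟩]
    exact isConnected_range ((continuous_subtype_val.smul continuous_const).subtype_mk _)) ⟨a, ha⟩
  rw [PreconnectedSpace.connectedComponent_eq_univ, preimage_univ] at h2
  exact isConnected_iff_connectedSpace.2
    (connectedSpace_iff_univ.2 (h2 ▸ isConnected_connectedComponent))

/-- Projective space has only the types `(j, j)`. -/
theorem Sc.HN_P [IsEmpty ι] {S : Set (E N)} (e : S = cone F) {i j : ℕ} (e' : i ≠ j) :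
    HN S (Quo.mk act) i j = ⊥ := by
  subst e
  rw [← HT_nat]
  by_cases k : i + j = n
  · haveI := (s.qm h hn).pd.fin
    have := s.finrank_mid h hn k
    rw [Finset.univ_eq_empty, Finset.empty_val, Multiset.map_zero, hp_zero,
      if_neg (by omega)] at this
    exact Submodule.finrank_eq_zero.1 (by exact_mod_cast this)
  · exact s.QT_off h hn k e'

end Vale.Agent.P287Q.Cub

namespace Vale.Agent.P287Q.Top

open Set P291Z P269 P269.Hdg Cub

theorem cubV : CubV := fun F hF hs => by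
  haveI := isAct_scl (π₀ (Fin 6))
  have c := S_cb hF hs
  obtain ⟨σ, h1, h2, h3⟩ := (cubF (qmF hF hs) hF hs).exists_gen
  exact ⟨pv hF hs, S_cone F ▸ (sc_scl (π₀ _)).conn c.ci c.hn (by simp), σ, h2,
    (Hb.HT_nat _ _ 3 1).symm.trans
      (le_antisymm h3 ((Submodule.span_singleton_le_iff_mem _ _).2 h1))⟩

theorem cubV_ust (J : Type) [Fintype J] : Ust (π₀ J) = {0}ᶜ := Set.ext fun _ => mem_ust

theorem cubV_pvP (n : ℕ) : PV (π₀ (Fin (n + 1))) {0}ᶜ n := cubV_ust (Fin (n + 1)) ▸ pv_proj n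

theorem cubV_connP (n : ℕ) : IsConnected ({0}ᶜ : Set (Fin (n + 1) → ℂ)) :=
  isConnected_compl_singleton_of_one_lt_rank (by
    rw [← Module.finrank_eq_rank, Module.finrank_pi_fintype]
    simp only [Complex.finrank_real_complex, Finset.sum_const, Finset.card_univ, Fintype.card_fin,
      smul_eq_mul]
    norm_cast
    omega) 0

theorem cubV_HN (n : ℕ) {i j : ℕ} (e : i ≠ j) :
    Hb.HN ({0}ᶜ : Set (Fin (n + 1) → ℂ)) (Quo.mk (scl (π₀ _))) i j = ⊥ :=
  haveI := isAct_scl (π₀ (Fin (n + 1)))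
  (sc_scl (π₀ _)).HN_P (F := (Empty.elim : Empty → MP n)) (d := Empty.elim) (n := n)
    ⟨fun j => j.elim, fun j => j.elim, fun _ _ => linearIndependent_empty_type⟩ rfl
    (Set.ext fun _ => ⟨fun h => ⟨h, fun j => j.elim⟩, fun h => h.1⟩) e

theorem p4_of (h : Nonempty (Prs (one (cubV_pvP 4) (cubV_connP 4)))) : P4 :=
  ⟨cubV_pvP 4, cubV_connP 4, ⟨cubV_HN 4 (by simp), h⟩, cubV_HN 4 (by simp)⟩

end Vale.Agent.P287Q.Top
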