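import Vale.Agent.P287Q.Top.P4
import Vale.Agent.P287Q.Pv.DetB
import Vale.Agent.P287Q.G.Vir.RD

/-!
# P287: presentations exist iff the determinant is trivial; blow-ups and isomorphisms
-/

set_option linter.unusedSectionVars false

namespace Vale.Agent.P287Q

open Set Function Topology Filter Module MvPolynomial P291Z P269 P269.Holo P269.Vir

theorem tn_scalar {W : Type*} [NormedAddCommGroup W] [NormedSpace ℂ W] {A : Set W} {y v : W}
    (hv : v ∈ tn A y) {f : W → ℂ} (h1 : AnalyticAt ℂ f y) (h2 : ∀ s ∈ A, f s = 0) :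
    fderiv ℂ f y v = 0 := by
  have := hv (fun s => f s • v) (h1.smul analyticAt_const)
    (.of_forall fun s a => by rw [h2 s a, zero_smul])
  rw [fderiv_smul_const h1.differentiableAt, ContinuousLinearMap.smulRight_apply] at this
  exact (smul_eq_zero.1 this).elim id fun e => by rw [e, map_zero]

section fam

variable {S Λ R J K : Type} [Fintype S] [Fintype Λ] [Fintype R] [Fintype J] [Fintype K]
  {F : Fam S Λ R J K} {l : Λ → ℂ} {y : J → ℂ}

theorem tn_fc_le (h : F.movᶜ ⊆ F.zer) : tn (F.fc l) y ≤ F.vert (l, y) := fun v hv => by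
  refine RP.mem_vert.2 ⟨fun j hj => ?_, fun k => ?_⟩
  · have := tn_scalar hv (f := fun s => s j) (an_cd y j) fun s a =>
      (F.mem_cone.1 a).1.2.2 j (h hj)
    rwa [fderiv_apply differentiableAt_id, fderiv_fun_id] at this
  · have d : HasDerivAt (fun ε : ℂ => y + ε • v) v 0 := by
      simpa using ((hasDerivAt_id (0 : ℂ)).smul_const v).const_add y
    exact ((hasDerivAt_eval _ y v).unique
      ((an_eval _ y).differentiableAt.hasFDerivAt.comp_hasDerivAt_of_eq 0 d (by simp))).trans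
      (tn_scalar hv (an_eval _ y) fun s a => (F.mem_cone.1 a).2.2 k)

end fam

variable {n m : ℕ} {V : Var n}

namespace Prs

variable (P : Prs V)

theorem actT (t : P.R → ℂ) (z : (Empty → ℂ) × (P.J → ℂ)) :
    P.F.actT (1, t) z = (0, tw P.F.w t z.2) :=
  Prod.ext (Subsingleton.elim _ _) (funext fun j => by simp [Wt.actT, tw])

/-- The cone of a presentation is a torsor over the cone of the variety. -/
theorem trs : Trs V.π V.A P.F.w (P.F.fc 0) P.ι P.ρ P.M P.Φ where
  inj := P.tors.inj'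
  wt := P.tors.w
  maps z a := P.tors.maps (0, z) a
  M_ρ := P.tors.M_ρ
  mem := P.tors.mem
  sec := P.tors.sec
  hol := P.tors.hol
  eqv t a y b := congrArg Prod.snd ((P.tors.eqv t a y b).trans (P.actT _ _))
  orb z a := (P.tors.orb (0, z) a).imp fun _ b =>
    ⟨b.1, congrArg Prod.snd (b.2.trans (P.actT _ _))⟩
  inv t a _ b := P.nice.toInv.fc_tac ⟨t, a⟩ b
  free t a z b e := P.nice.free t a (0, z) b ((P.actT _ _).trans (congrArg (Prod.mk 0) e))

/-- **The canonical bundle of a variety with a presentation.** -/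
theorem det : Det V.π V.A (n + Fintype.card V.R) fun s => ∑ r, P.γ r * P.M r s :=
  P.trs.down V.pv (fun _ _ => tn_fc_le P.abs.1) (P.reg.pe (Fintype.card_fin _).symm 0)

end Prs

namespace Var

theorem nonempty_J (V : Var n) (h : n ≠ 0) : Nonempty V.J := by
  obtain ⟨y, hy⟩ := V.conn.nonempty
  have := (tn V.A y).finrank_le
  rw [finrank_tn (V.pv.mfd y hy), finrank_fintype_fun_eq_card] at this
  exact Fintype.card_pos_iff.1 (by omega)

theorem prs_of_det (V : Var n) [Nonempty V.J] {γ : V.R → ℤ}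
    (h : Det V.π V.A (n + Fintype.card V.R) γ) : Nonempty (Prs V) := by
  obtain ⟨k, δ, g, _, a, b, c⟩ := chow V.J V.R Empty V.π (fun _ => Empty.elim) V.A n V.pv
    fun τ _ y e => mem_of_eq_of_mem (funext fun j => by simp [tw]) e
  exact Top.P4_prs V a b (fun i => (c i).1) h

/-- **Existence of presentations.** -/
theorem prs_iff (V : Var n) [Nonempty V.J] :
    Nonempty (Prs V) ↔ ∃ γ, Det V.π V.A (n + Fintype.card V.R) γ :=
  ⟨fun ⟨P⟩ => ⟨_, P.det⟩, fun ⟨_, h⟩ => V.prs_of_det h⟩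

end Var

theorem Ctr.det (c : Ctr V) {γ : V.R → ℤ} (h : Det V.π V.A (n + Fintype.card V.R) γ) :
    Det c.bl.π c.bl.A (n + Fintype.card c.bl.R)
      fun o => o.elim (n - c.m - 1 : ℕ) fun r => γ r - (n - c.m - 1 : ℕ) * c.δ r :=
  Det.bl V.pv c.pv (by have := c.cod; omega) c.cut c.pv'.toMC h

instance Ctr.nonempty_J (c : Ctr V) : Nonempty c.bl.J := c.bl.nonempty_J (by have := c.cod; omega)

/-- **The blow-up has a presentation.** -/
theorem Top.blprs : Top.BLPRS := fun _ _ c ⟨P⟩ => c.bl.prs_of_det (c.det P.det)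

section sct

variable {J J₀ R R₀ : Type} [Fintype J] [Fintype J₀] [Fintype R] [Fintype R₀] [DecidableEq R]
  [DecidableEq R₀] {π₀ : J₀ → R₀} {π : J → R} {A₀ : Set (J₀ → ℂ)} {A : Set (J → ℂ)} {ι : J₀ → J}
  {ρ : R₀ → R} {s : (J₀ → ℂ) → J → ℂ}

theorem char_inj {a b : R → ℤ} (h : ∀ t : R → ℂ, IsUnit t → ∏ r, t r ^ a r = ∏ r, t r ^ b r) :
    a = b := funext fun r => by
  have e : ∀ c : R → ℤ, ∏ x, update (1 : R → ℂ) r 2 x ^ c x = 2 ^ c r := fun c => by
    rw [Finset.prod_eq_single r (fun x _ f => by simp [f]) (by simp), update_self]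
  have := h (update 1 r 2) (unit_iff.2 fun x => by by_cases f : x = r <;> simp [f])
  rw [e, e] at this
  exact zpow_right_injective₀ (a := (2 : ℝ)) two_pos (by norm_num)
    (by simpa using congrArg (‖·‖) this)

/-- A global section makes the multicone a torsor. -/
theorem Sct.trs (h : Sct π₀ π A ι A₀ s) (h₀ : MC π₀ A₀) (hA : MC π A) (hn : A₀.Nonempty)
    (hρ : Injective ρ) (hb : ∀ j, π (ι j) = ρ (π₀ j)) (hm : ∀ z ∈ A, z ∘ ι ∈ A₀) :
    ∃ M, Trs π₀ A₀ (bw π) A ι ρ M s := by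
  obtain ⟨M, e⟩ := h.eqv
  refine ⟨M, hρ, fun j => by rw [bw, hb], hm, fun r => char_inj fun t a => ?_, h.mem, h.inv, h.hol,
    fun t a y b => by rw [tw_bw, e t a y b],
    fun z a => by simpa only [tw_bw, Orb] using h.orb z a (hm z a),
    fun t a y b => by rw [tw_bw]; exact hA.inv t a y b,
    fun t _ z a b => scl_inj (hA.sub a) (by rw [← tw_bw, b, scl_one])⟩
  obtain ⟨y, b⟩ := hn
  have c := h.inv _ (h₀.inv t a y b)
  rw [e t a y b] at c
  refine (congrFun (scl_inj (h₀.sub b) (t := fun r => ∏ x, t x ^ M (ρ r) x) (t' := t)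
    (Eq.trans (funext fun j => ?_) c)) r).trans (prod_sgl t r).symm
  simp only [scl, comp_apply, hb, show s y (ι j) = y j from congrFun (h.inv y b) j]

theorem Trs.det_up {M} (h : Trs π₀ A₀ (bw π) A ι ρ M s) (h₀ : PV π₀ A₀ n) (hA : PV π A n)
    {γ : R₀ → ℤ} (hD : Det π₀ A₀ (n + Fintype.card R₀) γ) :
    Det π A (n + Fintype.card R) (extend ρ γ 0) := by
  have := h.up h₀ hA.mfd hD
  simp only [tw_bw, prod_bw] at this
  refine (congrArg (PlE _ _ _ _ _) (funext fun t => ?_)).mp this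
  rw [← Finset.prod_subset (Finset.subset_univ (Finset.univ.image ρ)) fun r _ a => by
    rw [extend_apply' _ _ _ (by simpa using a), Pi.zero_apply, zpow_zero],
    Finset.prod_image h.inj.injOn]
  simp only [h.inj.extend_apply]

theorem Trs.det_down {M} (h : Trs π₀ A₀ (bw π) A ι ρ M s) (h₀ : PV π₀ A₀ n) {γ : R → ℤ}
    (hD : Det π A (n + Fintype.card R) γ) :
    Det π₀ A₀ (n + Fintype.card R₀) fun x => ∑ r, γ r * M r x :=
  h.down h₀ (fun _ _ => le_rfl) (by simpa only [tw_bw, prod_bw, Det] using hD)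

end sct

namespace Ext.Iso

variable {W : Var n} {f : Ext V W} (h : f.Iso)
include h

theorem trs : ∃ M s, Trs W.π W.A (bw V.π) V.A f.iJ f.iR M s :=
  let ⟨s, a⟩ := h
  let ⟨M, b⟩ := a.trs W.pv.toMC V.pv.toMC W.conn.nonempty f.injR f.blk f.map
  ⟨M, s, b⟩

/-- Presentations along isomorphisms. -/
theorem prs [Nonempty V.J] : Nonempty (Prs W) → Nonempty (Prs V) := fun ⟨P⟩ =>
  let ⟨_, _, a⟩ := h.trs
  V.prs_of_det (a.det_up W.pv V.pv P.det)

theorem prs' [Nonempty W.J] : Nonempty (Prs V) → Nonempty (Prs W) := fun ⟨P⟩ =>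
  let ⟨_, _, a⟩ := h.trs
  W.prs_of_det (a.det_down W.pv P.det)

end Ext.Iso

theorem Top.isoPrs (V W : Var 4) (f : Ext V W) (h : f.Iso) : Nonempty (Prs W) → Nonempty (Prs V) :=
  haveI := V.nonempty_J (by decide)
  h.prs

end Vale.Agent.P287Q
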