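import Vale.Agent.P287Q.Top.All
import Vale.Agent.P287Q.As.Inp
import Vale.Agent.P287Q.As.B
import Vale.Agent.P287Q.As.EXC
import Vale.Agent.P287Q.As.BLD
import Vale.Agent.P287Q.Wg.GB
import Vale.Agent.P287Q.Wg.Blm
import Vale.Agent.P287Q.Emb.GwEq

/-!
# P287: the main theorem
-/

namespace Vale.Agent.P287Q.Top

/-- **Theorem B.** -/
theorem thmB : THMB := As.thmB As.inp blm wgb As.exc As.bld gwEq

/-- **A rational cubic fourfold has a labelling of admissible discriminant.** -/
theorem fin : Cub.Main := main_of As.thmA' thmB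

end Vale.Agent.P287Q.Top
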