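import Vale.Agent.P287Q.Top.Coh

/-!
# P287: basic properties of varieties and of coordinate projections
-/

set_option linter.unusedSectionVars false
set_option linter.style.haveILetI false

namespace Vale.Agent.P269.Tq.QM

open Set Function Topology Filter P291Z Holo Mono Coh QMA

variable {A A' W W' : Type} [NormedRing A] [NormedAlgebra ℂ A] [NormedAddCommGroup W]
  [NormedSpace ℂ W] [NormedRing A'] [NormedAlgebra ℂ A'] [NormedAddCommGroup W'] [NormedSpace ℂ W']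
  [FiniteDimensional ℂ A] [FiniteDimensional ℂ W] [FiniteDimensional ℂ A'] [FiniteDimensional ℂ W']
  {act : A → W → W} {act' : A' → W' → W'} {S : Set W} {S' : Set W'} {f : W → W'} {θ : A → A'}
  [IsAct act univ] [IsAct act' univ] {n : ℤ}

/-- **A holomorphic map which is bijective over an open set that meets every component preserves
the fundamental class.** -/
theorem push_fnd_open (h : QM act S n) (h' : QM act' S' n) (φ : Hol act act' S S' θ f)
    {C : Set (Quo act' S')} (hC : IsClosed C) (hD : ∀ T, IsClopen T → Cᶜ ⊆ T → T = univ)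
    (inj : InjOn φ.q (φ.q ⁻¹' C)ᶜ) (surj : Cᶜ ⊆ range φ.q) :
    push φ.q (fnd act S) = fnd act' S' := by
  have := h.fp
  have := h'.fp
  have := h.fp.lc
  have := h.cpt
  have := h'.cpt
  have := FiniteDimensional.complete ℂ W
  let U := {x | ∃ hx : x ∈ S, φ.q (Quo.mk act ⟨x, hx⟩) ∉ C}
  have eU : U ⊆ S := fun x hx => hx.1
  have hU : IsOpen (Subtype.val ⁻¹' U : Set S) := by
    rw [show (Subtype.val ⁻¹' U : Set S) = (fun x => φ.q (Quo.mk act x)) ⁻¹' Cᶜ from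
      Set.ext fun x => ⟨fun h => h.2, fun h => ⟨x.2, h⟩⟩]
    exact hC.isOpen_compl.preimage (φ.q.continuous.comp continuous_mk)
  have := fp_sub h.fp eU (fun a ha x hx => ⟨h.fp.mem a ha x hx.1, by
    rw [mk_act ha hx.1]; exact hx.2⟩) (IsOpenEmbedding.inclusion eU hU).locallyCompactSpace
  have hd : Dim act U n.toNat := fun x hx => (h.dim x hx.1).congr
    (((ev_sub hx.1 (p := fun s => s ∈ U)).1 (hU.mem_nhds hx)).mono fun s k => ⟨k, @eU s⟩)
  have hj := isOpenEmbedding_qinc (act := act) eU hU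
  have hr : range (qinc act eU) = (φ.q ⁻¹' C)ᶜ :=
    Set.ext (Sp.surjective_mk.forall.2 fun x =>
      (mk_mem_range_qinc eU).trans ⟨fun h => h.2, fun h => ⟨x.val_mem, h⟩⟩)
  obtain ⟨h1, h2⟩ := oemb φ.q.continuous hC hj hr inj surj
  have h3 : ⇑(φ.mono eU (φ.maps.mono_left eU)).q = φ.q ∘ qinc act eU :=
    funext (mk_surj.forall.2 fun _ => rfl)
  have h4 := res_fnd hd h'.dim h'.lin _ (h3 ▸ h1)
  refine h'.ori.eq_of_res (h.ori.deg.push _) h'.ori.deg h1 (h2 ▸ hD) ?_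
  rw [res_push h1 hj (IsPr.of_compact φ.q.continuous) IsPr.id (fun _ => rfl) (by rw [h2, hr]; rfl),
    push_id', ← h3, h4]
  exact res_fnd hd h.dim h.lin (Hol.incl eU) hj

end Vale.Agent.P269.Tq.QM

namespace Vale.Agent.P287Q

open Set Function Topology Filter P291Z P269 P269.Holo P269.Tq

variable {n m l : ℕ}

namespace Var

variable (V : Var n)

theorem int_eq : V.int = (haveI := isAct_scl V.π; V.qm.ps.J) := rfl

theorem conn' : ConnectedSpace V.X :=
  haveI := isConnected_iff_connectedSpace.1 V.conn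
  mk_surj.connectedSpace continuous_mk

theorem nice : Nice V.X := V.pv.nice

theorem t2 : T2Space V.X := V.pv.t2

theorem pt_eq {x y : V.A} : V.pt x = V.pt y ↔ Orb V.π x y := V.pv.mk_eq_iff

theorem pt_surj : Surjective V.pt := mk_surj

theorem fin : FiniteDimensional ℂ (H V.X) :=
  haveI := isAct_scl V.π
  V.qm.pd.fin

theorem pd {x : H V.X} (h : ∀ y, V.int (x * y) = 0) : x = 0 :=
  haveI := isAct_scl V.π
  V.qm.ps.ext_left fun y => (h y).trans (by rw [zero_mul, map_zero])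

theorem pd' {x : H V.X} (h : ∀ y, V.int (y * x) = 0) : x = 0 :=
  haveI := isAct_scl V.π
  V.qm.pd.nondeg x h

theorem int_deg {k : ℤ} (hk : k ≠ 2 * n) {x : H V.X} (h : H.IsDeg k x) : V.int x = 0 :=
  haveI := isAct_scl V.π
  V.qm.pd.deg k hk x h

theorem Hg_eq (p q : ℕ) : V.Hg p q = Hb.QT (scl V.π) V.A p q := (Hb.HT_nat _ _ p q).symm

theorem Hg_deg {p q : ℕ} {x : H V.X} (h : x ∈ V.Hg p q) : H.IsDeg (p + q : ℕ) x :=
  Mf.IsHd.isDeg h

theorem lc_deg (χ : V.R → ℤ) : H.IsDeg 2 (V.lc χ) := V.pv.lcq_deg (hm_chr χ)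

theorem lc_eq (χ : V.R → ℤ) :
    V.lc χ = ∑ r, (χ r : ℂ) • lcq (scl V.π) V.A fun t => t r := V.pv.lcq_zpow χ

theorem lc_add (χ χ' : V.R → ℤ) : V.lc (χ + χ') = V.lc χ + V.lc χ' := by
  simp only [lc_eq, Pi.add_apply, Int.cast_add, add_smul, Finset.sum_add_distrib]

theorem lc_zero : V.lc 0 = 0 := by simp [lc_eq]

theorem lc_smul (k : ℤ) (χ : V.R → ℤ) : V.lc (k • χ) = (k : ℂ) • V.lc χ := by
  simp only [lc_eq, Pi.smul_apply, smul_eq_mul, Int.cast_mul, mul_smul, Finset.smul_sum]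

theorem lc_single (r : V.R) : V.lc (Pi.single r 1) = lcq (scl V.π) V.A fun t => t r := by
  rw [lc_eq, Finset.sum_eq_single r (fun _ _ h => by simp [h]) (by simp)]
  simp

end Var

namespace Ext

variable {U : Var l} {V : Var n} {W : Var m} (f : Ext V W)

theorem q_eq : f.q = f.hol.q := rfl

theorem q_pt (y : V.A) : f.q (V.pt y) = W.pt ⟨y.1 ∘ f.iJ, f.map _ y.2⟩ := rfl

theorem q_spc : ⇑f.q = f.spc := rfl

theorem pb_eq (c : H W.X) : f.pb c = H.map f.q c := rfl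

theorem q_comp (g : Ext U V) : (g.comp f).q = f.q.comp g.q :=
  ContinuousMap.ext (U.pt_surj.forall.2 fun _ => rfl)

theorem q_refl : (refl V).q = ContinuousMap.id _ :=
  ContinuousMap.ext (V.pt_surj.forall.2 fun _ => rfl)

theorem pb_id (c : H V.X) : (refl V).pb c = c := by
  rw [pb_eq, q_refl]
  exact H.map_id (fun _ => rfl) c

theorem pb_mem {p q : ℕ} {x : H W.X} (h : x ∈ W.Hg p q) : f.pb x ∈ V.Hg p q :=
  haveI := isAct_scl V.π
  haveI := isAct_scl W.π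
  Mf.IsHd.pull_lift' (fun x hx => ⟨_, V.pv.mfd x hx⟩) _ (Mf.holM_of_hol f.hol) h

theorem pb_pp {x : H W.X} (h : x ∈ W.pp) : f.pb x ∈ V.pp :=
  (iSup_le (a := V.pp.comap f.pb.toLinearMap) fun p _ k =>
    Submodule.mem_iSup_of_mem (p := fun p => V.Hg p p) p (f.pb_mem k)) h

theorem im_le : f.im ≤ V.Hg 3 1 := by
  rintro _ ⟨x, hx, rfl⟩
  exact f.pb_mem hx

theorem pb_deg {k : ℤ} {x : H W.X} (h : H.IsDeg k x) : H.IsDeg k (f.pb x) := h.map f.q

theorem pb_lcq {c : (W.R → ℂ) → ℂ} (hc : Hm c) :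
    f.pb (lcq (scl W.π) W.A c) = lcq (scl V.π) V.A fun t => c (t ∘ f.iR) :=
  map_lcq_coord' W.pv.toMC V.pv.toMC f.blk f.map hc

theorem pb_lc (χ : W.R → ℤ) : f.pb (W.lc χ) = V.lc (extend f.iR χ 0) := by
  refine (f.pb_lcq (hm_chr χ)).trans (congrArg _ (funext fun t => ?_))
  refine Finset.prod_of_injOn f.iR f.injR.injOn (fun _ _ => Finset.mem_univ _) (fun r _ h => ?_)
    fun r _ => ?_
  · rw [extend_apply' _ _ _ fun ⟨a, e⟩ => h ⟨a, Finset.mem_coe.2 (Finset.mem_univ a), e⟩]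
    exact zpow_zero _
  · rw [f.injR.extend_apply]
    rfl

variable {f} {O : Set (W.J → ℂ)} {s : (W.J → ℂ) → V.J → ℂ}

/-- a section gives preimages -/
theorem sct_surj (h : Sct W.π V.π V.A f.iJ O s) (x : W.A) (hx : x.1 ∈ O) :
    f.q (V.pt ⟨s x, h.mem _ hx⟩) = W.pt x := congrArg W.pt (Subtype.ext (h.inv _ hx))

/-- a section gives injectivity -/
theorem sct_inj' (h : Sct W.π V.π V.A f.iJ O s) {y y' : V.A} (hy : y.1 ∘ f.iJ ∈ O)
    (hy' : y'.1 ∘ f.iJ ∈ O) (e : f.q (V.pt y) = f.q (V.pt y')) : V.pt y = V.pt y' := by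
  obtain ⟨t, ht, e⟩ := W.pt_eq.1 e
  obtain ⟨d, hd⟩ := h.eqv
  rw [← (V.pt_eq (x := ⟨_, h.mem _ hy⟩)).2 (h.orb _ y.2 hy),
    ← (V.pt_eq (x := ⟨_, h.mem _ hy'⟩)).2 (h.orb _ y'.2 hy')]
  exact V.pt_eq.2 ⟨_, unit_iff.2 fun r => Finset.prod_ne_zero_iff.2 fun r₀ _ =>
    zpow_ne_zero _ (unit_iff.1 ht r₀), (congrArg s e).trans (hd t ht _ hy)⟩

variable {W : Var n} {f : Ext V W}

theorem Iso.homeo (h : f.Iso) : IsHomeomorph f.q :=
  haveI := V.cpt
  haveI := W.t2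
  isHomeomorph_iff_continuous_bijective.2 ⟨f.q.continuous, h.bij⟩

theorem Iso.int_pb (h : f.Iso) (x : H W.X) : V.int (f.pb x) = W.int x := h.int x

theorem Iso.pb_bij (h : f.Iso) : Bijective f.pb :=
  haveI := isAct_scl V.π
  haveI := isAct_scl W.π
  V.qm.bij_map W.qm f.hol h.bij

/-- A birational projection is bijective over the complement of a proper closed subset. -/
theorem Bir.exists_open (h : f.Bir) : ∃ C : Set W.X, IsClosed C ∧ Cᶜ.Nonempty ∧
    InjOn f.q (f.q ⁻¹' C)ᶜ ∧ Cᶜ ⊆ range f.q := by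
  obtain ⟨μ, G, -, s, hG, -, hs, x₀, h1, h2⟩ := h
  have k : ∀ x : W.A, W.pt x ∈ W.pt '' {x | G x = 0} ↔ G x = 0 := fun x =>
    ⟨fun ⟨y, a, b⟩ => let ⟨t, c, e⟩ := W.pt_eq.1 b; by rw [e, hG.hom t c, a.out, mul_zero],
      fun a => ⟨x, a, rfl⟩⟩
  refine ⟨W.pt '' {x | G x = 0}, ?_, ⟨W.pt ⟨x₀, h1⟩, fun a => h2 ((k _).1 a)⟩,
    V.pt_surj.forall.2 fun y a => V.pt_surj.forall.2 fun y' b e =>
      sct_inj' hs ⟨f.map _ y.2, fun c => a ((k _).2 c)⟩ ⟨f.map _ y'.2, fun c => b ((k _).2 c)⟩ e,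
    W.pt_surj.forall.2 fun x a => ⟨_, sct_surj hs x ⟨x.2, fun c => a ((k _).2 c)⟩⟩⟩
  rw [← W.pv.isOpenQuotientMap.isQuotientMap.isClosed_preimage,
    show (Quo.mk (scl W.π) ⁻¹' (W.pt '' {x | G x = 0}) : Set W.A) = {x : W.A | G x = 0} from
      Set.ext k]
  exact isClosed_eq ((continuous_iff_continuousAt.2 fun x => (hG.an x).continuousAt).comp
    continuous_subtype_val) continuous_const

theorem Bir.push_fnd (h : f.Bir) : push f.q (fnd (scl V.π) V.A) = fnd (scl W.π) W.A :=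
  haveI := isAct_scl V.π
  haveI := isAct_scl W.π
  haveI := W.conn'
  let ⟨_, h1, ⟨x, hx⟩, h2, h3⟩ := h.exists_open
  V.qm.push_fnd_open W.qm f.hol h1 (fun _ a b => a.eq_univ ⟨x, b hx⟩) h2 h3

theorem Bir.int_pb (h : f.Bir) (x : H W.X) : V.int (f.pb x) = W.int x := h.int x

theorem Bir.pb_inj (h : f.Bir) : Injective f.pb :=
  (injective_iff_map_eq_zero _).2 fun x e => W.pd fun y => by
    rw [← h.int_pb, map_mul, e, zero_mul, map_zero]

theorem Bir.surj (h : f.Bir) : Surjective f.q := fun y => by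
  have := isAct_scl W.π
  have := V.cpt
  have := W.t2
  by_contra k
  obtain ⟨a, h1, h2⟩ := W.qm.ori.gen y
  rw [← h.push_fnd, Orb.ev_push (IsPr.of_compact f.q.continuous) _ h1.zc, ev_eq,
    cls_of_mem_Bc (mem_Bc_of_null fun x hx => k ⟨x, h1.pt (supp_pull f.q.continuous a hx)⟩),
    map_zero] at h2
  exact h2 rfl

end Ext

end Vale.Agent.P287Q
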