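import Vale.Agent.P287Q.Top.CubV
import Vale.Agent.P287Q.Pv.Fam

/-!
# P287: projective space has a presentation
-/

set_option linter.unusedSectionVars false
set_option linter.style.haveILetI false

namespace Vale.Agent.P287Q

open Set Function Topology Module MvPolynomial P291Z P269 P269.Holo P269.Mono P269.Coh P269.Tq
  P269.Hdg Hb

variable {J R : Type} [Fintype J] [Fintype R] {π : J → R} {A : Set (J → ℂ)}

theorem isPreconnected_unit : IsPreconnected {t : R → ℂ | IsUnit t} := by
  have : {t : R → ℂ | IsUnit t} = univ.pi fun _ => {0}ᶜ := Set.ext fun _ => by simp [unit_iff]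
  rw [this]
  exact isPreconnected_univ_pi fun _ =>
    (isConnected_compl_singleton_of_one_lt_rank (by simp) (0 : ℂ)).isPreconnected

/-- The multicone over a connected variety is connected. -/
theorem MC.isConnected (h : MC π A) [c : ConnectedSpace (Spc π A)] : IsConnected A := by
  obtain ⟨x₀, -⟩ := mk_surj (Classical.arbitrary (Spc π A))
  refine ⟨⟨x₀, x₀.2⟩, isPreconnected_of_forall_constant fun f hf x hx y hy => ?_⟩
  have e : ∀ (z : A) t, IsUnit t → f z = f (scl π t z) := fun z t ht => by
    have := isPreconnected_unit.constant (f := fun s => f (scl π s z))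
      (hf.comp (continuous_scl.comp (continuous_id.prodMk continuous_const)).continuousOn
        fun s hs => h.inv s hs _ z.2) isUnit_one ht
    rwa [scl_one] at this
  let g : Spc π A → Bool := Quot.lift (fun z => f z) fun z w ⟨t, a, b⟩ => b ▸ e z t a
  exact PreconnectedSpace.constant c.toPreconnectedSpace (f := g)
    (continuous_quot_lift _ (continuousOn_iff_continuous_domRestrict.1 hf))
    (x := Quot.mk _ ⟨x, hx⟩) (y := Quot.mk _ ⟨y, hy⟩)

namespace Top

/-- A variety with equations and trivialised determinant has a presentation. -/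
theorem P4_prs {n : ℕ} (V : Var n) [Nonempty V.J] {K : Type} [Fintype K] {δ γ : V.R → ℤ}
    {g : K → MvPolynomial V.J ℂ} (h : Cut V.π (Ust V.π) V.A δ g) (hδ : ∀ r, 0 < δ r)
    (hg : ∀ k, g k ≠ 0) (hD : Det V.π V.A (n + Fintype.card V.R) γ) : Nonempty (Prs V) := by
  have t := fam_tg h V.pv hδ hg hD
  refine ⟨⟨V.R, V.J, K, fam V.π δ g, 30, γ, id, id, fun r => Pi.single r 1, id,
    ⟨t.toGood, t.reg, ⟨_, fun l =>
      ((MfdAt.univ l.1).congr (.of_forall fun _ => by simp [t.B])).isMfd l.2⟩,
      ⟨∅, by simp, by simp [t.E]⟩, 0, Fin.elim0, fun _ => 0, fun _ _ => 1, fun i => i.elim0,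
      linearIndependent_empty_type, fun _ i => i.elim0, by simp [t.mov],
      fun _ _ _ => ⟨analyticAt_const, one_ne_zero⟩, by simp [t.mov], by simp [t.mov],
      by simp [t.mov, t.E], fun _ _ => rfl⟩,
    fam_reg h V.pv hD, fam_big le_rfl, rfl, ⟨fun _ a => (a trivial).elim, rfl⟩, injective_id,
    injective_id, fun _ => rfl, fun _ => (fam_cone h).1, fun _ => rfl, fun _ a => (fam_cone h).2 a,
    fun _ _ => rfl, fun _ _ => .of_an analyticAt_id, fun s _ y _ => ?_,
    fun z _ => ⟨1, isUnit_one, ?_⟩⟩⟩
  · refine Eq.symm ((fam_actT _ _).trans (congrArg (fun a => (0, scl V.π a y)) (funext fun r => ?_)))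
    exact (Finset.prod_eq_single r (fun _ _ e => by simp [e]) (by simp)).trans (by simp)
  · exact Eq.symm ((fam_actT _ _).trans (Prod.ext (Subsingleton.elim _ _) (scl_one _)))

/-- Projective space has a presentation. -/
theorem P4_proj (n : ℕ) : Nonempty (Prs (one (cubV_pvP n) (cubV_connP n))) := by
  refine P4_prs (one _ _) (K := Empty) (δ := 1) (γ := fun _ => (n + 1 : ℕ)) (g := Empty.elim)
    ⟨nofun, (cubV_ust _).ge, fun y a => iff_of_true ((cubV_ust _).le a) (funext nofun),
      fun y a v _ _ => ?_⟩ (fun _ => one_pos) nofun ?_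
  · rw [tn_of_nhds (isOpen_compl_singleton.mem_nhds a)]
    trivial
  · refine Vir.plE_top (τ := (id : Fin (n + 1) → Fin (n + 1))) injective_id (fun y a η => ?_)
      fun t => ?_
    · rw [tn_of_nhds (isOpen_compl_singleton.mem_nhds a)]
      simp
    · rw [Fintype.prod_unique, zpow_natCast]
      exact (Fin.prod_const _ _).symm.trans (Finset.prod_congr rfl fun _ _ => rfl)

/-- **Projective space.** -/
theorem p4 : P4 := p4_of (P4_proj 4)

end Top

end Vale.Agent.P287Q
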