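import Vale.Agent.P287Q.Top.Bas
import Vale.Agent.P287Q.G.Bas.Supp

/-!
# P287: the degrees of a stable map to a presentation come from the line bundles of the variety
-/

set_option linter.unusedSectionVars false

namespace Vale.Agent.P269

open Set Function Topology Filter Cv Holo

variable {S Λ R J K ν κ : Type} [Fintype S] [Fintype Λ] [Fintype R] [Fintype J] [Fintype K]
  [Fintype ν] [Fintype κ] {F : Fam S Λ R J K}

theorem Wt.act_eq (F : Wt S Λ R J) (t : R → ℂ) (l : Λ → ℂ) (y : J → ℂ) :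
    F.actT (1, t) (l, y) = (l, fun j => (∏ r, t r ^ F.w j r) * y j) :=
  Prod.ext (F.actL_one l) (funext fun j => by simp [Wt.actT])

/-- A holomorphic function without zeros of weight `c` on the cone gives a relation between the
degrees of a map. -/
theorem AM.deg_rel (hF : F.Inv) {m : AM Λ R J ν κ} (h : m.Sol F) (c : R → ℤ) {τ : (J → ℂ) → ℂ}
    (ne : ∀ y, (m.l, y) ∈ F.cone → τ y ≠ 0)
    (eqv : ∀ t : R → ℂ, IsUnit t → ∀ y, (m.l, y) ∈ F.cone →
      τ (fun j => (∏ r, t r ^ F.w j r) * y j) = (∏ r, t r ^ c r) * τ y)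
    (hol : ∀ y, (m.l, y) ∈ F.cone → HolOn {y | (m.l, y) ∈ F.cone} τ y) :
    ∑ r, c r * deg (m.L r) = 0 := by
  rw [← deg_bz]
  refine deg_of_ne (s := fun z => τ (m.vl z).2) (fun x => ?_) fun x => ne _ (h.2.2 x)
  have hu : ∀ z, IsUnit fun r => ((m.L r).φ x z)⁻¹ := fun z =>
    Pi.isUnit_iff.2 fun r => (inv_ne_zero ((m.L r).ne x z)).isUnit
  have e : ∀ (a : R → ℤ) z (b : ℂ), b / (bz m.L a).φ x z = (∏ r, ((m.L r).φ x z)⁻¹ ^ a r) * b :=
    fun a z b => by
      simp only [bz, LB.prod_φ, LB.zpow_φ, inv_zpow, Finset.prod_inv_distrib, div_eq_inv_mul]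
  have k : ∀ z, (m.l, fun j => m.y j z / (bz m.L (F.w j)).φ x z) ∈ F.cone := fun z => by
    have := hF.cone_act (t := (1, _)) (Prod.isUnit_iff.2 ⟨isUnit_one, hu z⟩) (h.2.2 z)
    rw [AM.vl, F.act_eq] at this
    simpa only [e] using this
  have a : AnalyticAt ℂ (fun t j => (bz m.L (F.w j)).loc (m.y j) x t) 0 :=
    analyticAt_pi_iff.2 fun j => (h.2.1 j).1 x
  have b := (hol _ (k (m.R.i x 0))).arc ⟨a, rfl, .of_forall fun t => k _⟩
  refine b.congr (.of_forall fun t => ?_)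
  simp only [LB.loc, e]
  exact eqv _ (hu _) _ (h.2.2 _)

theorem mon_act (w : J → R → ℤ) {t : R → ℂ} (ht : IsUnit t) (α : J → ℕ) (y : J → ℂ) :
    ∏ j, ((∏ r, t r ^ w j r) * y j) ^ α j = (∏ r, t r ^ ∑ j, α j * w j r) * ∏ j, y j ^ α j := by
  simp only [mul_pow, Finset.prod_mul_distrib]
  congr 1
  simp only [← Finset.prod_pow]
  rw [Finset.prod_comm]
  refine Finset.prod_congr rfl fun r _ => ?_
  have h := (Pi.isUnit_iff.1 ht r).ne_zero
  induction (Finset.univ : Finset J) using Finset.cons_induction with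
  | empty => simp
  | cons a s ha ih =>
    rw [Finset.prod_cons, Finset.sum_cons, zpow_add₀ h, ih, mul_comm (α a : ℤ), zpow_mul,
      zpow_natCast]

end Vale.Agent.P269

namespace Vale.Agent.P287Q.Prs

open Set Function Topology Filter P291Z P269 P269.Holo P269.Cv

variable {n : ℕ} {V : Var n} (P : Prs V)

/-- The element of the torus that moves the section to a given point. -/
noncomputable def tau (y : P.J → ℂ) : P.R → ℂ :=
  Classical.epsilon fun t => IsUnit t ∧ y = fun j => (∏ r, t r ^ P.F.w j r) * P.Φ (y ∘ P.ι) j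

variable {P} {y : P.J → ℂ}

theorem tau_spec (h : (0, y) ∈ P.F.cone) : IsUnit (P.tau y) ∧
    y = fun j => (∏ r, P.tau y r ^ P.F.w j r) * P.Φ (y ∘ P.ι) j := by
  obtain ⟨t, a, b⟩ := P.tors.orb _ h
  rw [Wt.act_eq] at b
  exact Classical.epsilon_spec (p := fun t : P.R → ℂ => IsUnit t ∧
    y = fun j => (∏ r, t r ^ P.F.w j r) * P.Φ (y ∘ P.ι) j) ⟨t, a, congrArg Prod.snd b⟩

theorem tau_eq (h : (0, y) ∈ P.F.cone) {t : P.R → ℂ} (ht : IsUnit t)
    (e : y = fun j => (∏ r, t r ^ P.F.w j r) * P.Φ (y ∘ P.ι) j) : P.tau y = t := by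
  obtain ⟨a, b⟩ := tau_spec h
  have := P.nice.free (P.tau y * t⁻¹) (a.mul (unit_inv ht)) _ h (by
    rw [Wt.act_eq]
    refine congrArg _ (funext fun j => ?_)
    have c : ∏ r, t r ^ P.F.w j r ≠ 0 :=
      Finset.prod_ne_zero_iff.2 fun r _ => zpow_ne_zero _ (unit_iff.1 ht r)
    simp only [Pi.mul_apply, Pi.inv_apply, mul_zpow, inv_zpow, Finset.prod_mul_distrib,
      Finset.prod_inv_distrib]
    exact ((congrArg (_ * ·) (congrFun e j)).trans (by field_simp)).trans (congrFun b j).symm)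
  exact funext fun r => (mul_inv_eq_one₀ (unit_iff.1 ht r)).1 (congrFun this r)

theorem act_ι (t : P.R → ℂ) (y : P.J → ℂ) :
    (fun j => (∏ r, t r ^ P.F.w j r) * y j) ∘ P.ι = scl V.π (t ∘ P.ρ) (y ∘ P.ι) :=
  funext fun j => by
    simp only [scl, comp_apply, P.tors.w]
    rw [Finset.prod_eq_single (P.ρ (V.π j)) (fun r _ h => by simp [h]) (by simp)]
    simp

theorem tau_act (h : (0, y) ∈ P.F.cone) {t : P.R → ℂ} (ht : IsUnit t) :
    P.tau (fun j => (∏ r, t r ^ P.F.w j r) * y j) =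
      fun r => t r * (∏ s, t (P.ρ s) ^ P.M r s)⁻¹ * P.tau y r := by
  obtain ⟨a, b⟩ := tau_spec h
  have c : ∀ r, ∏ s, t (P.ρ s) ^ P.M r s ≠ 0 := fun r =>
    Finset.prod_ne_zero_iff.2 fun s _ => zpow_ne_zero _ (unit_iff.1 ht _)
  refine tau_eq ?_ (unit_iff.2 fun r => mul_ne_zero (mul_ne_zero (unit_iff.1 ht r)
    (inv_ne_zero (c r))) (unit_iff.1 a r)) (funext fun j => ?_)
  · rw [← Wt.act_eq]
    exact P.nice.cone_act (Prod.isUnit_iff.2 ⟨isUnit_one, ht⟩) h
  · have := P.tors.eqv (t ∘ P.ρ) (unit_iff.2 fun _ => unit_iff.1 ht _) _ (P.tors.maps _ h)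
    rw [Wt.act_eq] at this
    have k : P.Φ (scl V.π (t ∘ P.ρ) (y ∘ P.ι)) j = _ := congrFun (congrArg Prod.snd this) j
    rw [act_ι, k, congrFun b j]
    have d : ∏ r, (∏ s, t (P.ρ s) ^ P.M r s) ^ P.F.w j r ≠ 0 :=
      Finset.prod_ne_zero_iff.2 fun r _ => zpow_ne_zero _ (c r)
    simp only [comp_apply, mul_zpow, inv_zpow, Finset.prod_mul_distrib, Finset.prod_inv_distrib]
    field_simp

theorem an_mon {J : Type} [Fintype J] (α : J → ℕ) (y : J → ℂ) :
    AnalyticAt ℂ (fun y : J → ℂ => ∏ j, y j ^ α j) y :=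
  Finset.analyticAt_fun_prod _ fun j _ => (PV_an_crd j y).pow _

theorem tau_hol (h : (0, y) ∈ P.F.cone) (r : P.R) :
    HolOn {y | (0, y) ∈ P.F.cone} (fun y => P.tau y r) y := by
  obtain ⟨θ, N, -, -, k⟩ := P.nice.ample
  obtain ⟨α, a1, a2⟩ := k _ (.inr ⟨r, .inl rfl⟩) _ h
  obtain ⟨β, b1, b2⟩ := k _ (.inl rfl) _ h
  have hΦ : HolOn {y | (0, y) ∈ P.F.cone} (fun y => P.Φ (y ∘ P.ι)) y :=
    HolOn.comp (F := fun y => y ∘ P.ι) (P.tors.hol _ (P.tors.maps _ h))
      (.of_an (analyticAt_pi_iff.2 fun j => PV_an_crd _ y)) h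
      (.of_forall fun _ hs => P.tors.maps _ hs)
  have e : ∀ z, (0, z) ∈ P.F.cone → ∀ γ : P.J → ℕ, ∏ j, z j ^ γ j =
      (∏ r, P.tau z r ^ ∑ j, γ j * P.F.w j r) * ∏ j, P.Φ (z ∘ P.ι) j ^ γ j := fun z hz γ => by
    rw [← mon_act _ (tau_spec hz).1]
    exact Finset.prod_congr rfl fun j _ => congrArg (· ^ γ j) (congrFun (tau_spec hz).2 j)
  have c : (∏ j, y j ^ β j) * ∏ j, P.Φ (y ∘ P.ι) j ^ α j ≠ 0 :=
    mul_ne_zero b2 (right_ne_zero_of_mul (e y h α ▸ a2))
  have an : ∀ γ γ' : P.J → ℕ, AnalyticAt ℂ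
      (fun p : (P.J → ℂ) × (P.J → ℂ) => (∏ j, p.1 j ^ γ j) * ∏ j, p.2 j ^ γ' j) (y, P.Φ (y ∘ P.ι)) :=
    fun γ γ' => ((an_mon γ _).comp analyticAt_fst).mul ((an_mon γ' _).comp analyticAt_snd)
  have hp := (HolOn.of_an (S := {y | (0, y) ∈ P.F.cone}) (a := y) analyticAt_id).prod hΦ
  refine (hp.comp_an h ((an α β).div (an β α) c)).congr ?_
  filter_upwards [hp.ev h ((an β α).continuousAt.eventually_ne c)] with z hz k
  refine eq_div_of_mul_eq (hz k) ?_
  have u := unit_iff.1 (tau_spec k).1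
  simp only [id]
  rw [e z k α, e z k β]
  simp only [a1, b1, Pi.add_apply, zpow_add₀ (u _), Finset.prod_mul_distrib]
  rw [Finset.prod_eq_single (f := fun s => P.tau z s ^ Pi.single (M := fun _ => ℤ) r 1 s) r
    (fun s _ h => by simp [h]) (by simp), Pi.single_eq_same, zpow_one]
  ring

variable (P)

theorem deg_eq {ν κ : Type} [Fintype ν] [Fintype κ] {m : AM Empty P.R P.J ν κ} (h : m.Sol P.F) :
    (fun r => deg (m.L r)) = P.up fun s => deg (m.L (P.ρ s)) := funext fun r => by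
  have e : m.l = 0 := Subsingleton.elim _ _
  have := AM.deg_rel P.nice.toInv h (Pi.single r 1 - ∑ s, Pi.single (P.ρ s) (P.M r s))
    (τ := fun y => P.tau y r) (fun y hy => unit_iff.1 (tau_spec (e ▸ hy)).1 r)
    (fun t ht y hy => ?_) fun y hy => e ▸ tau_hol (e ▸ hy) r
  · simp only [Pi.sub_apply, Finset.sum_apply, sub_mul, Finset.sum_sub_distrib, Finset.sum_mul,
      Pi.single_apply, ite_mul, one_mul, zero_mul, Finset.sum_ite_eq', Finset.mem_univ,
      if_true] at this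
    rw [Finset.sum_comm] at this
    simpa [up, sub_eq_zero] using this
  · have u := unit_iff.1 ht
    rw [tau_act (e ▸ hy) ht]
    simp only [Pi.sub_apply, zpow_sub₀ (u _), Finset.prod_div_distrib]
    rw [div_eq_mul_inv]
    congr 2
    · rw [Finset.prod_eq_single r (fun s _ h => by simp [h]) (by simp)]
      simp
    · have := mon_act (fun s r' => Pi.single (M := fun _ => ℤ) (P.ρ s) (P.M r s) r') ht 1 1
      simp only [Pi.one_apply, mul_one, pow_one, Nat.cast_one, one_mul, Finset.prod_const_one]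
        at this
      simp only [Finset.sum_apply, ← this]
      refine congrArg _ (Finset.prod_congr rfl fun s _ => ?_)
      rw [Finset.prod_eq_single (P.ρ s) (fun s _ h => by simp [h]) (by simp)]
      simp

/-- **The invariants vanish unless the degree comes from the variety.** -/
theorem off {d : P.R → ℤ} {l} (h : P.gw' d l ≠ 0) : d = P.up (d ∘ P.ρ) := by
  rw [gw', Fam.cor_eq] at h
  obtain ⟨⟨m, h1, -, h2, -⟩, -⟩ := St.supp _ _ _ _ _ _ _ _ P.nice P.big h
  rw [← funext h2.2]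
  exact P.deg_eq h1

end Vale.Agent.P287Q.Prs
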