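import Vale.Agent.P287Q.Top.St
import Vale.Agent.P287Q.Us.Bir

/-!
# P287: birational projections
-/

namespace Vale.Agent.P287Q.Top

theorem birC : BirC := fun _ _ _ _ _ _ hg hf => hg.comp hf

theorem birB : BirB := fun _ _ c => c.down_bir

end Vale.Agent.P287Q.Top
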