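import Vale.Agent.P287Q.Top.P4

/-!
# P287: the cubic fourfold has a presentation
-/

namespace Vale.Agent.P287Q.Top

open Set Function MvPolynomial P269 P269.Holo

variable {F : MvPolynomial (Fin 6) ℂ}

/-- The canonical bundle of the cubic fourfold. -/
theorem cubP_det (hF : F.IsHomogeneous 3) (hs : Pub.IsSmoothForm F) :
    Det (Cub.π₀ (Fin 6)) (Pub.cone F) 5 fun _ => 3 := by
  have h : Vir.PlE (Fin 6) (fun t : {t : Unit → ℂ // IsUnit t} => scl (Cub.π₀ (Fin 6)) t.1)
      (Pub.cone F) (fun t (_ : Fin 6) => t.1 ()) (fun _ => ⊤) fun t => t.1 () ^ 6 :=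
    Vir.plE_top (τ := id) injective_id (fun _ _ _ => by simp) fun t => by simp
  refine (h.reindex (N' := Fin 5 ⊕ Unit) (by simp)).ker (fun y _ j => eval y (pderiv j F))
    (fun t _ => t.1 () ^ 3) (fun t _ => pow_ne_zero _ (unit_iff.1 t.2 _))
    (fun _ j y _ => .of_an (Cub.an_eval _ y)) (fun t y _ _ j => ?_) (fun y hy η => ?_)
    (fun y hy c => ?_) fun t => ?_
  · rw [Cub.scl_eq, Cub.Rat.eval_smul (hF.pderiv (i := j))]
    ring
  · simp only [Cub.pv_tn hs hy, mul_comm, Submodule.mem_top, true_and, forall_const]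
  · obtain ⟨v, e⟩ := Cub.exists_dir hs hy.1
    refine ⟨c () • v, trivial, fun _ => ?_⟩
    rw [Cub.fderiv_eval] at e
    refine Eq.trans ?_ ((congrArg (c () * ·) e).trans (mul_one _))
    rw [Finset.mul_sum]
    exact Finset.sum_congr rfl fun j _ => (mul_comm _ _).trans (mul_assoc _ _ _)
  · simp only [Fintype.prod_unique]
    exact (pow_add _ 3 3).trans (congrArg (· * _) (zpow_natCast _ 3).symm)

/-- **The cubic fourfold has a presentation.** -/
theorem cubP : CubP := fun F hF hs h c => by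
  obtain ⟨k, δ, g, _, h1, h2, h3⟩ := chow (Fin 6) Unit Empty _ (fun _ => Empty.elim) _ 4 h
    fun τ _ y hy => by rwa [Subsingleton.elim τ 1, tw_one]
  exact P4_prs (one h c) h1 h2 (fun i => (h3 i).1) (cubP_det hF hs)

end Vale.Agent.P287Q.Top
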