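import Vale.Agent.P287Q.Top.HRC
import Vale.Agent.P287Q.Sf.All

/-!
# P287: the last step, unconditionally
-/

namespace Vale.Agent.P287Q.Top

/-- **The last step.** -/
theorem last : LAST := last_of_sf Sf.stSf

end Vale.Agent.P287Q.Top
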