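import Vale.Agent.P287Q.Top.St
import Vale.Agent.P287Q.Us.Tw

/-!
# The tower over projective space which dominates the cubic
-/

namespace Vale.Agent.P287Q.Top

open Set

theorem one_eq_Pn {A : Set (Fin 5 → ℂ)} (e : A = Ust fun _ => ())
    (h : PV (Cub.π₀ (Fin 5)) A 4) (c : IsConnected A) : one h c = Pn 4 := by
  subst e
  rfl

theorem tow : TOWER := fun F h3 _ b h c h₀ c₀ => by
  obtain ⟨y, a1, a2⟩ := b.c_ex
  obtain ⟨W, ι, f, b1, b2, b3, b4⟩ := exists_tow b.g_hom ⟨y, a1, b.g_ne (mem_Ust_unit.1 a1) a2⟩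
  have e : one h₀ c₀ = Pn 4 := one_eq_Pn (ext fun _ => mem_Ust_unit.symm) h₀ c₀
  exact ⟨W, (congrArg (Tow · W) e).mpr b1, b.graph h3 h c b2 b3 b4⟩

end Vale.Agent.P287Q.Top
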