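import Vale.Agent.P287Q.Top.HG
import Vale.Agent.P287Q.Top.Srf
import Vale.Agent.P287Q.Top.Tow
import Vale.Agent.P287Q.Top.Bir
import Vale.Agent.P287Q.Top.CubP
import Vale.Agent.P287Q.Top.BLPRS

/-!
# P287: the main theorem from the two theorems on master spaces
-/

namespace Vale.Agent.P287Q.Top

theorem main_of (hA : THMA) (hB : THMB) : Cub.Main :=
  main p4 cubV cubP tow birC birB deg pull pDual finH blcoh blprs (iso_of hgv isoPrs) hA hB last

end Vale.Agent.P287Q.Top
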