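import Vale.Agent.P287Q.Top.St
import Vale.Agent.P287Q.Mf.Var

/-!
# P287: degree one, types of pull-backs, Poincare duality, finiteness
-/

namespace Vale.Agent.P287Q.Top

open P291Z P269

theorem deg : Deg := fun _ _ _ _ h x => h.int x

theorem pull : Pull := fun _ _ _ _ f _ _ _ hx => f.map_HN hx

theorem pDual : PDual := fun _ V x h => V.ps.ext_left fun y => by
  rw [zero_mul, map_zero]
  exact h y

theorem finH : FinH := fun _ V => V.qm.pd.fin

end Vale.Agent.P287Q.Top
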