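import Vale.Agent.P287Q.Top.Last
import Vale.Agent.P287Q.Top.CubV
import Vale.Agent.P287Q.Top.Coh
import Vale.Agent.P287Q.Hb.HRg
import Vale.Agent.P287Q.Mf.Surf

/-!
# P287: the Hodge-Riemann relations for the cubic; the last step from the theorem on surfaces
-/

namespace Vale.Agent.P287Q.Top

open Set P291Z P269 P269.Tq Hb

theorem hrc : HRC := fun F hF hs h => by
  obtain ⟨_, c, -⟩ := cubV F hF hs
  obtain ⟨_, _, e⟩ := h.emb'
  have := isAct_scl (Cub.π₀ (Fin 6))
  have := Mf.connected_quo (act := scl (Cub.π₀ (Fin 6))) c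
  simp only [Fintype.prod_unique] at e
  exact e.hr h.qm con_of_conn c.nonempty (by decide)

theorem surf_of (hM : Mf.StSf) : SURF := fun S C hC w w0 e => by
  obtain ⟨m, h1, h2⟩ := S.amp_pos
  obtain ⟨N, φ, k⟩ := S.emb
  obtain ⟨D, π, hD, hπ, -, h3, h4⟩ := k.exists_cone S.qm
  refine Mf.surf_var hM S hC w0 e ⟨_, S.amp_Lk⟩ ?_ ?_
  · have h5 := Mf.IsHd.pull_lift' (fun y hy => ⟨_, hD.mfd y hy⟩) (.id _) h4
      (e.ge (Submodule.mem_span_singleton_self w))
    have h6 := Mf.IsHd.pull_lift' (fun y hy => ⟨_, hD.mfd y hy⟩) (.id _) h4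
      ((S.T_nat 1 1).le (S.amp_mem (by decide)))
    rw [H.map_id fun _ => rfl] at h5 h6
    have h7 := HT_mul hD hπ ((HT_nat _ _ 2 0).ge h5) ((HT_nat _ _ 1 1).ge h6)
    rw [HT_out hD hπ (by simp), Submodule.mem_bot] at h7
    exact (congrArg _ h7).trans (map_zero _)
  · have h5 := (hC ⟨_, S.amp_Lk⟩ ⟨_, S.amp_Lk⟩).trans ((congrArg _ (sq _).symm).trans h2)
    exact (Int.natCast_pos.2 h1).trans_eq (by exact_mod_cast h5.symm)

/-- **The last step**, from the theorem on surfaces. -/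
theorem last_of_sf (hM : Mf.StSf) : LAST := last_of hrc (surf_of hM) deg

end Vale.Agent.P287Q.Top
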