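import Vale.Agent.P287Q.Top.St
import Vale.Agent.P287Q.Cub.S
import Vale.Agent.P287Q.Hb.PV

/-!
# P287: the last step, from the surface to the labelling
-/

namespace Vale.Agent.P287Q.Top

open Set Function Module P291Z P269 P269.Tq P269.Coh Zc Hb

/-- The Hodge-Riemann relations for the cubic. -/
def HRC : Prop := ∀ F : MvPolynomial (Fin 6) ℂ, F.IsHomogeneous 3 → Pub.IsSmoothForm F →
  ∀ h : PV (Cub.π₀ (Fin 6)) (Pub.cone F) 4,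
    HR (@QM.ps _ _ _ _ _ _ _ _ _ _ (isAct_scl _) _ h.qm) (QT _ (Pub.cone F)) (Cub.hyp F)

/-- The transcendental lattice of a surface with `p_g = 1`. -/
def SURF : Prop := ∀ (S : Var 2) (C : LinearMap.BilinForm ℤ (Lk S.X 2)),
  (∀ x y, (C x y : ℂ) = S.int (x.1 * y.1)) → ∀ w, w ≠ 0 → S.Hg 2 0 = ℂ ∙ w →
  ∃ (M : Submodule ℤ (Lk S.X 2)) (n : ℕ), n ≤ 19 ∧ Bijective (C.restrict M) ∧
    Lat.Sig (C.restrict M) 3 n ∧ ∀ x, (∀ y : Lk S.X 2, S.int (w * y.1) = 0 → C y x = 0) → x ∈ M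

theorem last_of (hr : HRC) (hS : SURF) (hD : Deg) : LAST := by
  rintro F h3 hs h c Γ p hp ⟨S, φ, φ0, φ1, e⟩
  have := isAct_scl (Cub.π₀ (Fin 6))
  have := isAct_scl S.π
  have := isAct_scl Γ.π
  have zS := pz_qm S.pv.qm
  obtain ⟨σ, hσ, h0, h31⟩ := (Cub.cubF h.qm h3 hs).exists_gen
  have e1 : ∀ x, x ∈ (one h c).Hg 3 1 ↔ x ∈ QT _ (Pub.cone F) 3 1 := fun x => Cub.hd_iff
  obtain ⟨w, hw, e2⟩ : p.pb σ ∈ (S.Hg 2 0).map φ := e ▸ ⟨σ, (e1 σ).2 hσ, rfl⟩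
  have dg : ∀ x ∈ S.Hg 2 0, H.IsDeg 2 x := fun x ⟨a, h1, h2, _⟩ => ⟨a, h1, h2⟩
  have inj : ∀ x, H.IsDeg 2 x → φ x = 0 → x = 0 := fun x hx k =>
    (zS.mid ⟨1, rfl⟩).nondeg x hx fun y hy => neg_eq_zero.1 (by
      refine (φ1 x y hx hy).symm.trans ?_
      rw [k, zero_mul, map_zero])
  have w0 : w ≠ 0 := fun k => h0 (h.qm.ps.pd.nondeg σ fun y => by
    refine (hD _ _ _ p hp _).symm.trans ?_
    rw [map_mul, ← e2, k, map_zero, mul_zero, map_zero])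
  have e3 : S.Hg 2 0 = ℂ ∙ w := le_antisymm (fun x hx => by
    obtain ⟨y, hy, k⟩ : φ x ∈ p.im := e ▸ ⟨x, hx, rfl⟩
    obtain ⟨t, rfl⟩ := Submodule.mem_span_singleton.1 (h31 ((e1 y).1 hy))
    refine Submodule.mem_span_singleton.2 ⟨t, sub_eq_zero.1 (inj _ ?_ ?_)⟩
    · exact dg _ (sub_mem (Submodule.smul_mem _ t hw) hx)
    · rw [map_sub, map_smul, e2, ← k, map_smul]
      exact sub_self _) ((Submodule.span_singleton_le_iff_mem _ _).2 hw)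
  obtain ⟨C, hC, -⟩ := zS.form
  obtain ⟨M, n, hn, uM, sM, hM⟩ := hS S C hC w w0 e3
  exact Cub.lab_of h.qm h3 hs (hr F h3 hs h) zS (pz_qm Γ.pv.qm) rfl hσ h0 hC (dg w hw)
    (T' := {a | S.int (w * a) = 0}) (fun _ k => k) uM hn sM hM p.q (hD _ _ _ p hp) φ φ0
    (fun y hy => φ1 w y (dg w hw) hy) e2.symm

end Vale.Agent.P287Q.Top
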